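import Vale.Agent.P022D.PA.Defs

/-!
P022D, block PA, row 7802: box ideals, right exactness and finite generation of patched modules.
-/

set_option linter.all false

noncomputable section

namespace Vale.Agent.P022D.PA

open IsLocalRing Filter

theorem box_mem_J1 {P : Type} [CommRing P] {ι : Type} [Fintype ι] (a : ι → P) {X : Type}
    [AddCommGroup X] [Module P X] (x : X) :
    x ∈ J1 a • (⊤ : Submodule P X) ↔ ∃ w : ι → X, x = ∑ i, a i • w i := by
  constructor
  · intro h
    refine Submodule.smul_induction_on h ?_ ?_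
    · intro r hr y _
      obtain ⟨c, hc⟩ := (Submodule.mem_span_range_iff_exists_fun P).1 hr
      refine ⟨fun i => c i • y, ?_⟩
      rw [← hc, Finset.sum_smul]
      refine Finset.sum_congr rfl fun i _ => ?_
      rw [smul_eq_mul, mul_comm, mul_smul]
    · rintro _ _ ⟨w, rfl⟩ ⟨w', rfl⟩
      refine ⟨fun i => w i + w' i, ?_⟩
      rw [← Finset.sum_add_distrib]
      refine Finset.sum_congr rfl fun i _ => ?_
      rw [smul_add]
  · rintro ⟨w, rfl⟩
    exact Submodule.sum_mem _ fun i _ =>
      Submodule.smul_mem_smul (Ideal.subset_span ⟨i, rfl⟩) Submodule.mem_top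

theorem box_mk_eq {P : Type} [CommRing P] [IsLocalRing P] {U : Filter ℕ} {M : ℕ → Type}
    [∀ n, AddCommGroup (M n)] [∀ n, Module P (M n)] (x y : ∀ n, M n) :
    (Submodule.Quotient.mk x : L P U M) = Submodule.Quotient.mk y ↔
      ∀ j : ℕ, ∀ᶠ n in U, x n - y n ∈ maximalIdeal P ^ j • (⊤ : Submodule P (M n)) :=
  Submodule.Quotient.eq _

theorem box_sum (hS : SMU) {P : Type} [CommRing P] [IsLocalRing P] {U : Filter ℕ} {M : ℕ → Type}
    [∀ n, AddCommGroup (M n)] [∀ n, Module P (M n)] {ι : Type} [Fintype ι]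
    (z : ℕ → ι → P) (a : ι → P) (ha : ∀ i, Cv U (fun n => z n i) (a i)) (w : ι → ∀ n, M n) :
    (Submodule.Quotient.mk (fun n => ∑ i, z n i • w i n) : L P U M) =
      ∑ i, a i • Submodule.Quotient.mk (w i) := by
  have e : (fun n => ∑ i, z n i • w i n) = ∑ i, (fun n => z n i • w i n) := by
    funext n
    rw [Finset.sum_apply]
  rw [e]
  have := map_sum (Null P U M).mkQ (fun i => (fun n => z n i • w i n : ∀ n, M n)) Finset.univ
  rw [Submodule.mkQ_apply] at this
  rw [this]
  refine Finset.sum_congr rfl fun i _ => ?_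
  rw [Submodule.mkQ_apply]
  exact hS P U M (fun n => z n i) (a i) (ha i) (w i)

theorem box (hD : DIAG) (hS : SMU) : BOX := by
  intro P _ _ U hU M _ _ ι _ z a ha x
  constructor
  · intro h
    obtain ⟨W, hW⟩ := (box_mem_J1 a _).1 h
    choose w hw using fun i => Submodule.Quotient.mk_surjective (Null P U M) (W i)
    have e : (Submodule.Quotient.mk x : L P U M) =
        Submodule.Quotient.mk (fun n => ∑ i, z n i • w i n) := by
      rw [box_sum hS z a ha w, hW]
      exact Finset.sum_congr rfl fun i _ => by rw [hw i]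
    intro j
    refine ((box_mk_eq _ _).1 e j).mono fun n hn => ?_
    have e2 : x n = (∑ i, z n i • w i n) + (x n - ∑ i, z n i • w i n) := by abel
    rw [e2]
    exact Submodule.add_mem_sup ((box_mem_J1 _ _).2 ⟨fun i => w i n, rfl⟩) hn
  · intro h
    obtain ⟨y, hy, e⟩ := hD P U hU M (fun n => J1 (z n) • ⊤) x h
    choose w hw using fun n => (box_mem_J1 (z n) (y n)).1 (hy n)
    have e2 : y = fun n => ∑ i, z n i • (fun i n => w n i) i n := funext hw
    rw [e, e2, box_sum hS z a ha (fun i n => w n i)]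
    exact (box_mem_J1 _ _).2 ⟨_, rfl⟩

theorem box_Lmap_mk {P : Type} [CommRing P] [IsLocalRing P] (U : Filter ℕ) {M N : ℕ → Type}
    [∀ n, AddCommGroup (M n)] [∀ n, Module P (M n)] [∀ n, AddCommGroup (N n)]
    [∀ n, Module P (N n)] (f : ∀ n, M n →ₗ[P] N n) (x : ∀ n, M n) :
    Lmap U f (Submodule.Quotient.mk x) = Submodule.Quotient.mk (fun n => f n (x n)) := rfl

theorem rex (hD : DIAG) : REX := by
  intro P _ _ U hU A B C _ _ _ _ _ _ f g hex hs
  refine ⟨fun Y => ?_, fun Z => ?_⟩
  · obtain ⟨y, rfl⟩ := Submodule.Quotient.mk_surjective (Null P U B) Y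
    rw [box_Lmap_mk]
    constructor
    · intro h
      have h' : ∀ j : ℕ, ∀ᶠ n in U, g n (y n) ∈ maximalIdeal P ^ j • (⊤ : Submodule P (C n)) :=
        (Submodule.Quotient.mk_eq_zero _).1 h
      have h2 : ∀ j : ℕ, ∀ᶠ n in U, y n ∈ LinearMap.range (f n) ⊔
          maximalIdeal P ^ j • (⊤ : Submodule P (B n)) := by
        intro j
        refine (h' j).mono fun n hn => ?_
        have ht : (⊤ : Submodule P (B n)).map (g n) = ⊤ := by
          rw [Submodule.map_top, LinearMap.range_eq_top]
          exact hs n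
        rw [← ht, ← Submodule.map_smul''] at hn
        obtain ⟨b, hb, e⟩ := hn
        have k : g n (y n - b) = 0 := by rw [map_sub, e, sub_self]
        obtain ⟨t, ht⟩ := (hex n _).1 k
        have e2 : y n = (y n - b) + b := by abel
        rw [e2]
        exact Submodule.add_mem_sup ⟨t, ht⟩ hb
      obtain ⟨y', hy', e⟩ := hD P U hU B (fun n => LinearMap.range (f n)) y h2
      choose x hx using hy'
      refine ⟨Submodule.Quotient.mk x, ?_⟩
      rw [box_Lmap_mk, e]
      exact congrArg _ (funext hx)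
    · rintro ⟨X, hX⟩
      obtain ⟨x, rfl⟩ := Submodule.Quotient.mk_surjective (Null P U A) X
      rw [← box_Lmap_mk, ← hX, box_Lmap_mk, box_Lmap_mk]
      have : (fun n => g n (f n (x n))) = 0 := funext fun n => (hex n _).2 ⟨x n, rfl⟩
      rw [this]
      rfl
  · obtain ⟨z, rfl⟩ := Submodule.Quotient.mk_surjective (Null P U C) Z
    choose y hy using fun n => hs n (z n)
    exact ⟨Submodule.Quotient.mk y, by rw [box_Lmap_mk]; exact congrArg _ (funext hy)⟩

theorem fg (hL : LIM) : FG := by
  intro P _ _ U M _ _ ⟨b, hp⟩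
  choose p hp using hp
  refine Module.Finite.of_surjective
    ((Null P (U : Filter ℕ) M).mkQ.comp (LinearMap.pi p)) fun X => ?_
  obtain ⟨x, rfl⟩ := Submodule.Quotient.mk_surjective (Null P (U : Filter ℕ) M) X
  choose v hv using fun n => hp n (x n)
  choose a ha using fun i => hL P U (fun n => v n i)
  refine ⟨a, ?_⟩
  rw [LinearMap.comp_apply, Submodule.mkQ_apply, eq_comm, box_mk_eq]
  intro j
  refine (Filter.eventually_all.2 fun i => ha i j).mono fun n hn => ?_
  rw [LinearMap.pi_apply, ← hv n, ← map_sub, pi_eq_sum_univ' (v n - a), map_sum]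
  refine Submodule.sum_mem _ fun i _ => ?_
  rw [map_smul]
  exact Submodule.smul_mem_smul (hn i) Submodule.mem_top

end Vale.Agent.P022D.PA
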