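import Vale.Agent.P022D.PA.Defs

/-!
P022D, block PA: chains of primes from regular sequences, and injectivity.
-/

set_option linter.all false

noncomputable section

namespace Vale.Agent.P022D.PA

namespace ChnH

variable {P : Type} [CommRing P] {X : Type} [AddCommGroup X] [Module P X] {ι : Type}

theorem mem_ann (N : Submodule P X) (r : P) :
    r ∈ Module.annihilator P (X ⧸ N) ↔ ∀ x : X, r • x ∈ N := by
  rw [Module.mem_annihilator]
  constructor
  · intro h x
    rw [← Submodule.Quotient.mk_eq_zero, Submodule.Quotient.mk_smul]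
    exact h _
  · intro h x
    obtain ⟨x, rfl⟩ := Submodule.Quotient.mk_surjective N x
    rw [← Submodule.Quotient.mk_smul, Submodule.Quotient.mk_eq_zero]
    exact h x

theorem mono (a : ι → P) {S T : Set ι} (h : S ⊆ T) :
    Ideal.span (a '' S) • (⊤ : Submodule P X) ≤ Ideal.span (a '' T) • (⊤ : Submodule P X) :=
  Submodule.smul_mono_left (Ideal.span_mono (Set.image_mono h))

theorem split (a : ι → P) (S : Set ι) (i : ι) {v : X}
    (h : v ∈ Ideal.span (a '' insert i S) • (⊤ : Submodule P X)) :
    ∃ x : X, v - a i • x ∈ Ideal.span (a '' S) • (⊤ : Submodule P X) := by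
  rw [Set.image_insert_eq, Ideal.span_insert, Submodule.sup_smul, Submodule.mem_sup] at h
  obtain ⟨y, hy, w, hw, rfl⟩ := h
  rw [Submodule.ideal_span_singleton_smul, Submodule.mem_smul_pointwise_iff_exists] at hy
  obtain ⟨x, -, rfl⟩ := hy
  exact ⟨x, by rwa [add_sub_cancel_left]⟩

theorem cpl [Fintype ι] [DecidableEq ι] {T : Finset ι} {i : ι} (h : i ∉ T) :
    ((Tᶜ : Finset ι) : Set ι) = insert i (((insert i T)ᶜ : Finset ι) : Set ι) := by
  ext j
  simp only [Finset.coe_compl, Set.mem_compl_iff, Finset.mem_coe, Set.mem_insert_iff,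
    Finset.mem_insert, not_or]
  by_cases e : j = i
  · subst e
    exact ⟨fun _ => Or.inl rfl, fun _ => h⟩
  · exact ⟨fun k => Or.inr ⟨e, k⟩, fun k => (k.resolve_left e).2⟩

theorem ncpl [Fintype ι] [DecidableEq ι] (T : Finset ι) (i : ι) :
    i ∉ ((insert i T)ᶜ : Finset ι) := fun h =>
  Finset.mem_compl.1 h (Finset.mem_insert_self i T)

theorem all [Fintype ι] [DecidableEq ι] (a : ι → P) :
    Ideal.span (a '' (((∅ : Finset ι)ᶜ : Finset ι) : Set ι)) = J1 a := by
  rw [Finset.compl_empty, Finset.coe_univ, Set.image_univ, J1]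

end ChnH

open ChnH

theorem chn : CHN := by
  intro P _ _ 𝔭 h𝔭 X _ _ _ ι _ a reg ann
  classical
  have key : ∀ T : Finset ι, ∃ η : Ideal P, η.IsPrime ∧ η ≤ 𝔭 ∧
      Module.annihilator P (X ⧸ Ideal.span (a '' ((Tᶜ : Finset ι) : Set ι)) •
        (⊤ : Submodule P X)) ≤ η ∧ (∀ i ∈ T, a i ∉ η) ∧
      (T.card : WithBot ℕ∞) + ringKrullDim (P ⧸ 𝔭) ≤ ringKrullDim (P ⧸ η) := by
    intro T
    induction T using Finset.induction_on with
    | empty =>
      refine ⟨𝔭, h𝔭, le_rfl, ?_, fun i hi => absurd hi (Finset.notMem_empty i), ?_⟩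
      · rw [all]
        exact ann
      · rw [Finset.card_empty, Nat.cast_zero, zero_add]
    | insert i T hi ih =>
      obtain ⟨q, q1, q2, q3, q4, q5⟩ := ih
      have e := cpl hi
      have le : Module.annihilator P (X ⧸ Ideal.span (a '' (((insert i T)ᶜ : Finset ι) : Set ι)) •
          (⊤ : Submodule P X)) ≤ q := fun r hr => q3 ((mem_ann _ r).2 fun x =>
        mono a (by rw [e]; exact Set.subset_insert _ _) ((mem_ann _ r).1 hr x))
      obtain ⟨η, η1, η2⟩ := Ideal.exists_minimalPrimes_le le
      have ass := Module.associatedPrimes.minimalPrimes_annihilator_subset_associatedPrimes P _ η1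
      obtain ⟨η0, x, hx⟩ := isAssociatedPrime_iff.1 ass
      obtain ⟨x, rfl⟩ := Submodule.Quotient.mk_surjective _ x
      have mem : ∀ r : P, r ∈ η ↔ r • x ∈
          Ideal.span (a '' (((insert i T)ᶜ : Finset ι) : Set ι)) • (⊤ : Submodule P X) :=
        fun r => by
          rw [hx, Submodule.mem_colon_singleton, Submodule.mem_bot, ← Submodule.Quotient.mk_smul,
            Submodule.Quotient.mk_eq_zero]
      have ai : a i ∉ η := fun k => by
        obtain ⟨h, h1, h2⟩ := reg _ i (ncpl T i) x ((mem _).1 k)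
        exact h1 (q2 (η2 ((mem h).2 h2)))
      have aq : a i ∈ q := q3 ((mem_ann _ _).2 fun y => Submodule.smul_mem_smul
        (Ideal.subset_span ⟨i, by rw [e]; exact Set.mem_insert _ _, rfl⟩) trivial)
      refine ⟨η, η0, η2.trans q2, η1.1.2, fun j hj => ?_, ?_⟩
      · rcases Finset.mem_insert.1 hj with rfl | hj
        · exact ai
        · exact fun k => q4 j hj (η2 k)
      · have d := ringKrullDim_succ_le_of_surjective (Ideal.Quotient.factor η2)
          (Ideal.Quotient.factor_surjective η2) (r := Ideal.Quotient.mk η (a i))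
          (mem_nonZeroDivisors_of_ne_zero fun k => ai (Ideal.Quotient.eq_zero_iff_mem.1 k))
          (by rw [Ideal.Quotient.factor_mk]; exact Ideal.Quotient.eq_zero_iff_mem.2 aq)
        refine le_trans ?_ d
        rw [Finset.card_insert_of_notMem hi, Nat.cast_succ, add_right_comm]
        exact add_le_add q5 le_rfl
  obtain ⟨η, η0, η1, η2, η3, η4⟩ := key Finset.univ
  refine ⟨η, η0, η1, fun r hr => η2 ((mem_ann _ r).2 fun x => ?_),
    fun i => η3 i (Finset.mem_univ i), η4⟩
  rw [Module.mem_annihilator.1 hr x]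
  exact Submodule.zero_mem _

theorem inj (hK : KRU) : INJ := by
  intro P _ _ 𝔭 h𝔭 X Y _ _ _ _ _ f ι _ a ha reg fib
  classical
  have mul : ∀ {g h : P}, g ∉ 𝔭 → h ∉ 𝔭 → g * h ∉ 𝔭 := fun hg hh k =>
    (h𝔭.mem_or_mem k).elim hg hh
  have key : ∀ (T : Finset ι) (v : X),
      f v ∈ Ideal.span (a '' ((Tᶜ : Finset ι) : Set ι)) • (⊤ : Submodule P Y) →
      ∃ h ∉ 𝔭, h • v ∈ Ideal.span (a '' ((Tᶜ : Finset ι) : Set ι)) • (⊤ : Submodule P X) := by
    intro T
    induction T using Finset.induction_on with
    | empty =>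
      rw [all]
      exact fib
    | insert i T hi ih =>
      rw [cpl hi] at ih
      have rg := reg _ i (ncpl T i)
      generalize (((insert i T)ᶜ : Finset ι) : Set ι) = S at ih rg ⊢
      have im : ∀ w ∈ Ideal.span (a '' S) • (⊤ : Submodule P X),
          f w ∈ Ideal.span (a '' S) • (⊤ : Submodule P Y) := fun w hw => by
        have m := Submodule.mem_map_of_mem (f := f) hw
        rw [Submodule.map_smul''] at m
        exact Submodule.smul_mono le_rfl le_top m
      have it : ∀ (n : ℕ) (v : X), f v ∈ Ideal.span (a '' S) • (⊤ : Submodule P Y) →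
          ∃ h ∉ 𝔭, h • v ∈ Ideal.span (a '' S) • (⊤ : Submodule P X) ⊔
            𝔭 ^ n • (⊤ : Submodule P X) := by
        intro n
        induction n with
        | zero =>
          intro v _
          refine ⟨1, (Ideal.ne_top_iff_one 𝔭).1 h𝔭.ne_top, Submodule.mem_sup_right ?_⟩
          rw [pow_zero, Ideal.one_eq_top, Submodule.top_smul]
          trivial
        | succ n ihn =>
          intro v hv
          obtain ⟨h, h1, h2⟩ := ih v (mono a (Set.subset_insert i S) hv)
          obtain ⟨x, hx⟩ := split a S i h2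
          have e1 : a i • f x ∈ Ideal.span (a '' S) • (⊤ : Submodule P Y) := by
            have e := Submodule.sub_mem _ (Submodule.smul_mem _ h hv) (im _ hx)
            rwa [map_sub, map_smul, map_smul, sub_sub_cancel] at e
          obtain ⟨g, g1, g2⟩ := rg _ e1
          obtain ⟨k, k1, k2⟩ := ihn (g • x) (by rwa [map_smul])
          obtain ⟨w, hw, z, hz, e2⟩ := Submodule.mem_sup.1 k2
          refine ⟨k * g * h, mul (mul k1 g1) h1, ?_⟩
          have e3 : (k * g * h) • v = ((k * g) • (h • v - a i • x) + a i • w) + a i • z := by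
            rw [add_assoc, ← smul_add, e2]
            module
          rw [e3]
          refine Submodule.add_mem_sup
            (Submodule.add_mem _ (Submodule.smul_mem _ _ hx) (Submodule.smul_mem _ _ hw)) ?_
          rw [pow_succ', Submodule.mul_smul]
          exact Submodule.smul_mem_smul (ha i) hz
      exact fun v hv => hK P 𝔭 X _ v fun n => it n v hv
  intro v hv
  obtain ⟨h, h1, h2⟩ := key Finset.univ v (by rw [hv]; exact Submodule.zero_mem _)
  rw [Finset.compl_univ, Finset.coe_empty, Set.image_empty, Ideal.span_empty, Submodule.bot_smul,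
    Submodule.mem_bot] at h2
  exact ⟨h, h1, h2⟩

end Vale.Agent.P022D.PA
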