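import Vale.Agent.P022D.PA.Defs

/-! P022D, block PA: the colon formula from the socle condition. -/

set_option linter.all false

noncomputable section

namespace Vale.Agent.P022D.PA

namespace ColAux

variable {P : Type} [CommRing P] {ι : Type} [Fintype ι] (u : ι → P)
  {X : Type} [AddCommGroup X] [Module P X]

theorem mem_Jb (α : ι → ℕ) (x : X) :
    x ∈ Jb u α • (⊤ : Submodule P X) ↔ ∃ y : ι → X, x = ∑ i, u i ^ α i • y i := by
  constructor
  · intro h
    refine Submodule.smul_induction_on h (fun r hr z _ => ?_) ?_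
    · obtain ⟨c, rfl⟩ := (Submodule.mem_span_range_iff_exists_fun P).1 hr
      refine ⟨fun i => c i • z, ?_⟩
      rw [Finset.sum_smul]
      refine Finset.sum_congr rfl fun i _ => ?_
      rw [smul_smul, smul_eq_mul, mul_comm]
    · rintro _ _ ⟨y, rfl⟩ ⟨z, rfl⟩
      refine ⟨y + z, ?_⟩
      rw [← Finset.sum_add_distrib]
      exact Finset.sum_congr rfl fun i _ => (smul_add _ _ _).symm
  · rintro ⟨y, rfl⟩
    exact Submodule.sum_mem _ fun i _ =>
      Submodule.smul_mem_smul (Ideal.subset_span ⟨i, rfl⟩) Submodule.mem_top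

theorem dvd_mem (β : ι → ℕ) (i : ι) (c : P) (h : u i ^ β i ∣ c) (y : X) :
    c • y ∈ Jb u β • (⊤ : Submodule P X) := by
  obtain ⟨d, rfl⟩ := h
  exact Submodule.smul_mem_smul (Ideal.mul_mem_right _ _ (Ideal.subset_span ⟨i, rfl⟩))
    Submodule.mem_top

theorem mo_dvd (γ : ι → ℕ) (i : ι) (m n : ℕ) (h : n ≤ γ i + m) :
    u i ^ n ∣ (∏ l, u l ^ γ l) * u i ^ m := by
  refine (pow_dvd_pow _ h).trans ?_
  rw [pow_add]
  exact mul_dvd_mul_right (Finset.dvd_prod_of_mem (fun l => u l ^ γ l) (Finset.mem_univ i)) _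

theorem mo_add [DecidableEq ι] (γ : ι → ℕ) (i : ι) (m : ℕ) :
    ∏ l, u l ^ (γ l + if l = i then m else 0) = (∏ l, u l ^ γ l) * u i ^ m := by
  simp only [pow_add, Finset.prod_mul_distrib]
  congr 1
  rw [Finset.prod_eq_single i]
  · rw [if_pos rfl]
  · intro l _ hl
    rw [if_neg hl, pow_zero]
  · intro h
    exact absurd (Finset.mem_univ i) h

theorem main (j : ℕ) (hS : Soc u j X) (n : ℕ) : ∀ δ ε : ι → ℕ, ∑ i, δ i = n → (∀ i, 1 ≤ δ i) →
    (∀ i, δ i + ε i = j + 1) → ∀ x : X,
    (∏ i, u i ^ ε i) • x ∈ Jb u (fun _ => j + 1) • (⊤ : Submodule P X) →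
      x ∈ Jb u δ • (⊤ : Submodule P X) := by
  classical
  induction n using Nat.strong_induction_on with
  | _ n ih =>
  intro δ ε hn h1 hj x hx
  by_cases h : ∀ i, δ i = 1
  · have he : ∀ i, ε i = j := fun i => by have := hj i; have := h i; omega
    simp only [he, Finset.prod_pow] at hx
    have h2 : Jb u δ = J1 u := by
      unfold Jb J1
      simp only [h, pow_one]
    rw [h2]
    exact hS x hx
  · push Not at h
    obtain ⟨i, hi⟩ := h
    have h2 : 2 ≤ δ i := by have := h1 i; omega
    have step : ∀ m, 1 ≤ m → m < δ i → ∀ z : X,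
        ((∏ l, u l ^ ε l) * u i ^ m) • z ∈ Jb u (fun _ => j + 1) • (⊤ : Submodule P X) →
          z ∈ Jb u (fun l => δ l - if l = i then m else 0) • (⊤ : Submodule P X) := by
      intro m hm hm' z hz
      refine ih _ ?_ _ (fun l => ε l + if l = i then m else 0) rfl (fun l => ?_) (fun l => ?_) z ?_
      · rw [← hn]
        refine Finset.sum_lt_sum (fun l _ => Nat.sub_le _ _) ⟨i, Finset.mem_univ i, ?_⟩
        rw [if_pos rfl]
        omega
      · have := h1 l
        split_ifs with hl
        · subst hl; omega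
        · omega
      · have := hj l
        split_ifs with hl
        · subst hl; omega
        · omega
      · rw [mo_add]
        exact hz
    obtain ⟨y, hy⟩ := (mem_Jb u _ x).1 (step 1 le_rfl h2 x (by
      rw [mul_comm, mul_smul]
      exact Submodule.smul_mem _ _ hx))
    rw [← Finset.add_sum_erase _ _ (Finset.mem_univ i), if_pos rfl] at hy
    have hk : ∀ (c : P) (β : ι → ℕ), (∀ l, l ≠ i → u l ^ β l ∣ c * u l ^ δ l) →
        c • ∑ l ∈ Finset.univ.erase i, u l ^ (δ l - if l = i then 1 else 0) • y l ∈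
          Jb u β • (⊤ : Submodule P X) := by
      intro c β hc
      rw [Finset.smul_sum]
      refine Submodule.sum_mem _ fun l hl => ?_
      have hl' := Finset.ne_of_mem_erase hl
      rw [if_neg hl', Nat.sub_zero, smul_smul]
      exact dvd_mem u β l _ (hc l hl') _
    have h3 : y i ∈ Jb u (fun l => δ l - if l = i then δ i - 1 else 0) • (⊤ : Submodule P X) := by
      refine step (δ i - 1) (by omega) (by omega) _ ?_
      have h4 := hk (∏ l, u l ^ ε l) (fun _ => j + 1) fun l _ =>
        mo_dvd u ε l _ _ (by have := hj l; omega)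
      rw [hy, smul_add] at hx
      rw [mul_smul]
      exact (Submodule.add_mem_iff_left _ h4).1 hx
    obtain ⟨z, hz⟩ := (mem_Jb u _ _).1 h3
    rw [hy]
    refine Submodule.add_mem _ ?_ ?_
    · rw [hz, Finset.smul_sum]
      refine Submodule.sum_mem _ fun l _ => ?_
      rw [smul_smul]
      refine dvd_mem u δ l _ ?_ _
      split_ifs with hl
      · subst hl
        rw [← pow_add]
        exact pow_dvd_pow _ (by omega)
      · rw [Nat.sub_zero]
        exact dvd_mul_left _ _
    · have h5 := hk 1 δ fun l _ => dvd_mul_left _ _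
      rwa [one_smul] at h5

end ColAux

open ColAux

theorem col : COL := by
  intro P _ ι _ u j X _ _ hS α γ hγ hα x hx
  refine main u j hS _ _ (fun i => γ i + (j + 1 - α i)) rfl (fun i => ?_) (fun i => ?_) x ?_
  · have := hγ i; omega
  · have := hγ i; have := hα i; omega
  · obtain ⟨y, hy⟩ := (mem_Jb u _ _).1 hx
    simp only [pow_add, Finset.prod_mul_distrib]
    rw [mul_comm, mul_smul, hy, Finset.smul_sum]
    refine Submodule.sum_mem _ fun l _ => ?_
    rw [smul_smul]
    exact dvd_mem u _ l _ (mo_dvd u (fun i => j + 1 - α i) l _ _ (by have := hα l; omega)) _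

end Vale.Agent.P022D.PA
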