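import Vale.Agent.P022D.PA.Defs

/-!
P022D, block PA: the end game at a prime, and descent.
-/

set_option linter.all false

noncomputable section

namespace Vale.Agent.P022D.PA

open IsLocalRing Filter

theorem end_ (hK : KRU) (hL : LEN) (h0 : LEN0) : END := by
  intro P _ _ η hη C _ _ _ π δ a 𝔟 hπ hδ hreg hgen hb hle hfin
  let g : (P ⧸ (𝔟 ⊔ Ideal.span {π})) →ₗ[P] (C ⧸ Ideal.span {π} • (⊤ : Submodule P C)) :=
    Submodule.mapQ (𝔟 ⊔ Ideal.span {π}) _ (LinearMap.toSpanSingleton P C a) (by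
      refine sup_le (fun z hz => ?_) fun z hz => ?_
      · rw [Submodule.mem_comap, LinearMap.toSpanSingleton_apply,
          Module.mem_annihilator.1 (hb hz) a]
        exact Submodule.zero_mem _
      · rw [Submodule.mem_comap, LinearMap.toSpanSingleton_apply]
        exact Submodule.smul_mem_smul hz trivial)
  have g1 : ∀ z : P, g (Submodule.Quotient.mk z) = Submodule.Quotient.mk (z • a) := fun z => rfl
  have hE := (hL P η (LinearMap.ker g) _ _ (LinearMap.ker g).subtype g (fun x => x.2)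
    fun y hy => ⟨1, (Ideal.ne_top_iff_one η).1 hη.ne_top, ⟨y, hy⟩, (one_smul _ _).symm⟩).2
    (fun x hx => ⟨1, (Ideal.ne_top_iff_one η).1 hη.ne_top, by
      rw [one_smul]; exact Subtype.ext hx⟩)
    (fun z => ⟨δ, hδ, by
      obtain ⟨v, rfl⟩ := Submodule.Quotient.mk_surjective _ z
      obtain ⟨y, hy, w, hw, e⟩ := Submodule.mem_sup.1 (hgen v)
      obtain ⟨c, rfl⟩ := Submodule.mem_span_singleton.1 hy
      refine ⟨Submodule.Quotient.mk c, ?_⟩
      rw [g1, ← Submodule.Quotient.mk_smul, ← e, Submodule.Quotient.mk_add,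
        (Submodule.Quotient.mk_eq_zero _).2 hw, add_zero]⟩)
  have hz : ln η (LinearMap.ker g) = 0 := by
    have h1 : ln η (C ⧸ Ideal.span {π} • (⊤ : Submodule P C)) ≠ ⊤ := fun h =>
      hfin (by rw [hE, h, add_top])
    rw [hE] at hle
    exact le_antisymm ((ENat.add_le_add_iff_right h1).1 (by rwa [zero_add])) bot_le
  have st : ∀ z : P, z • a = 0 → ∃ h ∉ η, ∃ y : P, y • a = 0 ∧ h * z - π * y ∈ 𝔟 := by
    intro z hza
    obtain ⟨h, hh, e⟩ := (h0 P η (LinearMap.ker g)).1.1 hz ⟨Submodule.Quotient.mk z, by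
      rw [LinearMap.mem_ker, g1, hza]; rfl⟩
    have e1 : h • z ∈ 𝔟 ⊔ Ideal.span {π} :=
      (Submodule.Quotient.mk_eq_zero _).1 (congrArg Subtype.val e)
    obtain ⟨b, hb', w, hw, e2⟩ := Submodule.mem_sup.1 e1
    obtain ⟨y, rfl⟩ := Ideal.mem_span_singleton'.1 hw
    rw [smul_eq_mul] at e2
    obtain ⟨k, hk, e3⟩ := hreg (y • a) (by
      have : π * y = h * z - b := by rw [← e2]; ring
      rw [← mul_smul, this, sub_smul, mul_smul, hza, smul_zero,
        Module.mem_annihilator.1 (hb hb') a, sub_zero])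
    refine ⟨k * h, fun hm => (hη.mem_or_mem hm).elim hk hh, k * y, by rw [mul_smul, e3], ?_⟩
    have : k * h * z - π * (k * y) = k * b := by rw [mul_assoc, ← e2]; ring
    rw [this]
    exact 𝔟.mul_mem_left _ hb'
  have it : ∀ (n : ℕ) (z : P), z • a = 0 →
      ∃ h ∉ η, ∃ y : P, y • a = 0 ∧ h * z - π ^ n * y ∈ 𝔟 := by
    intro n z hza
    induction n with
    | zero => exact ⟨1, (Ideal.ne_top_iff_one η).1 hη.ne_top, z, hza, by simp⟩
    | succ n ih =>
      obtain ⟨h, hh, y, hy, e⟩ := ih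
      obtain ⟨k, hk, w, hw, e'⟩ := st y hy
      refine ⟨k * h, fun hm => (hη.mem_or_mem hm).elim hk hh, w, hw, ?_⟩
      have : k * h * z - π ^ (n + 1) * w = k * (h * z - π ^ n * y) + π ^ n * (k * y - π * w) := by
        ring
      rw [this]
      exact 𝔟.add_mem (𝔟.mul_mem_left _ e) (𝔟.mul_mem_left _ e')
  have one : ∀ t ∈ Module.annihilator P C, ∃ h ∉ η, h * t ∈ 𝔟 := by
    intro t ht
    refine hK P η P 𝔟 t fun n => ?_
    obtain ⟨h, hh, y, -, e⟩ := it n t (Module.mem_annihilator.1 ht a)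
    refine ⟨h, hh, Submodule.mem_sup.2 ⟨_, e, π ^ n * y,
      Submodule.smul_mem_smul (Ideal.pow_mem_pow hπ n) trivial, ?_⟩⟩
    rw [smul_eq_mul, sub_add_cancel]
  obtain ⟨s, hs⟩ := IsNoetherian.noetherian (Module.annihilator P C)
  have fin : ∀ s : Finset P, (∀ t ∈ s, t ∈ Module.annihilator P C) →
      ∃ h ∉ η, ∀ t ∈ s, h * t ∈ 𝔟 := by
    classical
    intro s
    induction s using Finset.induction_on with
    | empty => exact fun _ => ⟨1, (Ideal.ne_top_iff_one η).1 hη.ne_top, by simp⟩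
    | insert x s _ ih =>
      intro H
      obtain ⟨h, hh, e⟩ := ih fun t ht => H t (Finset.mem_insert_of_mem ht)
      obtain ⟨k, hk, e'⟩ := one x (H x (Finset.mem_insert_self _ _))
      refine ⟨k * h, fun hm => (hη.mem_or_mem hm).elim hk hh, fun t ht => ?_⟩
      rcases Finset.mem_insert.1 ht with rfl | ht
      · rw [mul_comm k, mul_assoc]
        exact 𝔟.mul_mem_left _ e'
      · rw [mul_assoc]
        exact 𝔟.mul_mem_left _ (e t ht)
  obtain ⟨h, hh, e⟩ := fin s fun t ht => hs ▸ Submodule.subset_span ht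
  refine ⟨h, hh, fun t ht => ?_⟩
  rw [← hs] at ht
  induction ht using Submodule.span_induction with
  | mem x hx => exact e x hx
  | zero => rw [mul_zero]; exact 𝔟.zero_mem
  | add x y _ _ hx hy => rw [mul_add]; exact 𝔟.add_mem hx hy
  | smul c x _ hx => rw [smul_eq_mul, mul_left_comm]; exact 𝔟.mul_mem_left _ hx

theorem dsc (hM : LIM) (hI : LIMI) (hS : SMU) (hF : FG) (hB : BOX) : DSC := by
  intro P _ _ U hU ι _ s M _ _ hG 𝔮 h𝔮 hA hs z a hz hx
  choose σ hσ using fun i => hM P U fun n => s n i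
  have h1 : J1 σ ≤ 𝔮 := Ideal.span_le.2 (by
    rintro _ ⟨i, rfl⟩
    exact (hI P U _ _ 𝔮 (hσ i)).1 (Eventually.of_forall fun n => hs n i))
  haveI := hF P U M hG
  have h2 : (⟨𝔮, h𝔮⟩ : PrimeSpectrum P) ∈ Module.support P
      (L P (U : Filter ℕ) M ⧸ 𝔮 • (⊤ : Submodule P (L P (U : Filter ℕ) M))) := by
    rw [Module.support_quotient]
    exact ⟨Module.mem_support_iff_of_finite.2 hA, fun _ h => h⟩
  refine Module.mem_support_iff_of_finite.1 h2 (Module.mem_annihilator.2 fun v => ?_)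
  obtain ⟨v, rfl⟩ := Submodule.Quotient.mk_surjective _ v
  obtain ⟨x, rfl⟩ := Submodule.Quotient.mk_surjective _ v
  rw [← Submodule.Quotient.mk_smul, Submodule.Quotient.mk_eq_zero, ← hS P U M z a hz x]
  exact Submodule.smul_mono h1 le_rfl ((hB P U hU M ι s σ hσ _).2 fun j =>
    Eventually.of_forall fun n => Submodule.mem_sup_left (hx n (x n)))

end Vale.Agent.P022D.PA
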