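import Vale.Agent.P022D.PA.Defs

/-!
P022D, block PA: the unramified cover.
-/

set_option linter.all false

noncomputable section

namespace Vale.Agent.P022D.PA

open IsLocalRing

namespace EtlP

/-- integral injective extensions have the same dimension -/
theorem dim_eq {A B : Type} [CommRing A] [CommRing B] [Algebra A B] [Algebra.IsIntegral A B]
    (hi : Function.Injective (algebraMap A B)) : ringKrullDim B = ringKrullDim A := by
  apply le_antisymm
  · refine Order.krullDim_le_of_strictMono
      (fun q : PrimeSpectrum B => PrimeSpectrum.comap (algebraMap A B) q) fun q q' hlt => ?_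
    have h1 : q.asIdeal < q'.asIdeal := hlt
    obtain ⟨x, hx', hx⟩ := SetLike.exists_of_lt h1
    exact Ideal.comap_lt_comap_of_integral_mem_sdiff h1.le ⟨hx', hx⟩
      (Algebra.IsIntegral.isIntegral x)
  · refine iSup_le fun l => ?_
    have hb : (⊥ : Ideal B).comap (algebraMap A B) ≤ (RelSeries.head l).asIdeal := by
      intro x hx
      have h0 : algebraMap A B x = 0 := hx
      have h1 : x = 0 := hi (by rw [h0, map_zero])
      rw [h1]
      exact Ideal.zero_mem _
    obtain ⟨Q, -, hQ, hQl⟩ := Ideal.exists_ideal_over_prime_of_isIntegral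
      (RelSeries.head l).asIdeal (⊥ : Ideal B) hb
    haveI : Q.LiesOver (RelSeries.head l).asIdeal := ⟨hQl.symm⟩
    obtain ⟨L, hL, -, -⟩ := Ideal.exists_ltSeries_of_hasGoingUp l Q
    rw [← hL]
    exact Order.LTSeries.length_le_krullDim L

/-- one more generator killed by the maximal ideal -/
theorem len_sup {S N : Type} [CommRing S] [IsLocalRing S] [AddCommGroup N] [Module S N]
    (N₁ : Submodule S N) (v : N) (hv : ∀ z ∈ maximalIdeal S, z • v ∈ N₁) :
    Module.length S (N₁ ⊔ Submodule.span S {v} : Submodule S N) ≤ Module.length S N₁ + 1 := by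
  let N₀ : Submodule S N := N₁ ⊔ Submodule.span S {v}
  let f : N₁ →ₗ[S] N₀ := Submodule.inclusion le_sup_left
  have hv0 : v ∈ N₀ := Submodule.mem_sup_right (Submodule.mem_span_singleton_self v)
  have h1 : Module.length S N₀ = Module.length S N₁ + Module.length S (N₀ ⧸ LinearMap.range f) :=
    Module.length_eq_add_of_exact f (LinearMap.range f).mkQ (Submodule.inclusion_injective _)
      (Submodule.mkQ_surjective _) (LinearMap.exact_iff.2 (Submodule.ker_mkQ _))
  let g₀ : S →ₗ[S] N₀ ⧸ LinearMap.range f :=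
    LinearMap.toSpanSingleton S _ ((LinearMap.range f).mkQ ⟨v, hv0⟩)
  have hk : maximalIdeal S ≤ LinearMap.ker g₀ := by
    intro z hz
    show z • (LinearMap.range f).mkQ ⟨v, hv0⟩ = 0
    rw [← map_smul, Submodule.mkQ_apply, Submodule.Quotient.mk_eq_zero]
    exact ⟨⟨z • v, hv z hz⟩, rfl⟩
  let g : (S ⧸ maximalIdeal S) →ₗ[S] N₀ ⧸ LinearMap.range f := Submodule.liftQ _ g₀ hk
  have hg : Function.Surjective g := by
    intro w
    obtain ⟨⟨w, hw⟩, rfl⟩ := Submodule.mkQ_surjective _ w
    obtain ⟨n, hn, u, hu, rfl⟩ := Submodule.mem_sup.1 hw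
    obtain ⟨c, rfl⟩ := Submodule.mem_span_singleton.1 hu
    refine ⟨Submodule.Quotient.mk c, ?_⟩
    show c • (LinearMap.range f).mkQ ⟨v, hv0⟩ = _
    rw [← map_smul, Submodule.mkQ_apply, Submodule.mkQ_apply, eq_comm, Submodule.Quotient.eq]
    refine ⟨⟨n, hn⟩, Subtype.ext ?_⟩
    show n = n + c • v - c • v
    rw [add_sub_cancel_right]
  haveI : IsSimpleModule S (S ⧸ maximalIdeal S) :=
    isSimpleModule_iff_quot_maximal.2 ⟨maximalIdeal S, inferInstance, ⟨LinearEquiv.refl _ _⟩⟩
  have h2 := Module.length_le_of_surjective g hg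
  have h3 : Module.length S (S ⧸ maximalIdeal S) = 1 := Module.length_eq_one_iff.2 this
  rw [h3] at h2
  exact h1.le.trans (add_le_add le_rfl h2)

/-- lengths along a semilinear map -/
theorem len_le {R S M N : Type} [CommRing R] [IsLocalRing R] [CommRing S] [IsLocalRing S]
    [AddCommGroup M] [Module R M] [AddCommGroup N] [Module S N] (φ : R →+* S) (f : M →ₛₗ[φ] N)
    (J : Ideal S) (hJ : ∀ z ∈ J, ∀ n : N, z • n = 0)
    (hm : maximalIdeal S ≤ (maximalIdeal R).map φ ⊔ J)
    (hs : Submodule.span S (Set.range f) = ⊤) : Module.length S N ≤ Module.length R M := by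
  have step : ∀ p q : Submodule R M, p ⋖ q →
      Module.length S (Submodule.span S (f '' (q : Set M))) ≤
        Module.length S (Submodule.span S (f '' (p : Set M))) + 1 := by
    intro p q hpq
    obtain ⟨x, hxq, hxp⟩ := SetLike.exists_of_lt hpq.lt
    have hq : ∀ u ∈ q, u ∉ p → p ⊔ Submodule.span R {u} = q := fun u hu hup => by
      have hle : p ⊔ Submodule.span R {u} ≤ q :=
        sup_le hpq.le ((Submodule.span_singleton_le_iff_mem u q).2 hu)
      rcases hpq.eq_or_eq le_sup_left hle with h | h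
      · exact absurd (h ▸ Submodule.mem_sup_right (Submodule.mem_span_singleton_self u)) hup
      · exact h
    have hmx : ∀ m ∈ maximalIdeal R, m • x ∈ p := fun m hm' => by
      by_contra hn
      have h := hq _ (q.smul_mem m hxq) hn
      rw [← h] at hxq
      obtain ⟨n, hn', u, hu, he⟩ := Submodule.mem_sup.1 hxq
      obtain ⟨c, rfl⟩ := Submodule.mem_span_singleton.1 hu
      have hun : IsUnit (1 - c * m) :=
        isUnit_one_sub_self_of_mem_nonunits _ (Ideal.mul_mem_left _ c hm')
      have h1 : (1 - c * m) • x = n := by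
        rw [sub_smul, one_smul, mul_smul, sub_eq_iff_eq_add, he]
      obtain ⟨w, hw⟩ := hun.exists_left_inv
      have h2 : x = w • n := by rw [← h1, ← mul_smul, hw, one_smul]
      exact hxp (h2 ▸ p.smul_mem w hn')
    have he : Submodule.span S (f '' (q : Set M)) =
        Submodule.span S (f '' (p : Set M)) ⊔ Submodule.span S {f x} := by
      apply le_antisymm
      · rw [Submodule.span_le]
        rintro _ ⟨u, hu, rfl⟩
        rw [← hq x hxq hxp] at hu
        obtain ⟨n, hn', u', hu', rfl⟩ := Submodule.mem_sup.1 hu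
        obtain ⟨c, rfl⟩ := Submodule.mem_span_singleton.1 hu'
        rw [map_add, LinearMap.map_smulₛₗ]
        exact Submodule.add_mem _ (Submodule.mem_sup_left (Submodule.subset_span ⟨n, hn', rfl⟩))
          (Submodule.mem_sup_right (Submodule.smul_mem _ _ (Submodule.mem_span_singleton_self _)))
      · exact sup_le (Submodule.span_mono (Set.image_mono hpq.le))
          ((Submodule.span_singleton_le_iff_mem _ _).2 (Submodule.subset_span ⟨x, hxq, rfl⟩))
    rw [he]
    refine len_sup _ _ fun z hz => ?_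
    let K : Ideal S := (Submodule.span S (f '' (p : Set M))).comap
      (LinearMap.toSpanSingleton S N (f x))
    have hK : (maximalIdeal R).map φ ⊔ J ≤ K := by
      refine sup_le (Ideal.map_le_iff_le_comap.2 fun m hm' => ?_) fun z hz => ?_
      · show φ m • f x ∈ Submodule.span S (f '' (p : Set M))
        rw [← LinearMap.map_smulₛₗ]
        exact Submodule.subset_span ⟨_, hmx m hm', rfl⟩
      · show z • f x ∈ Submodule.span S (f '' (p : Set M))
        rw [hJ z hz]
        exact Submodule.zero_mem _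
    exact hK (hm hz)
  by_cases h : IsFiniteLength R M
  · obtain ⟨s, hb, ht⟩ := isFiniteLength_iff_exists_compositionSeries.mp h
    rw [← Module.length_compositionSeries s hb ht]
    have key : ∀ k : Fin (s.length + 1),
        Module.length S (Submodule.span S (f '' (s k : Set M))) ≤ (k : ℕ) := by
      intro k
      induction k using Fin.induction with
      | zero =>
        have h0 : s 0 = ⊥ := hb
        have h1 : Submodule.span S (f '' (s 0 : Set M)) = ⊥ := by
          rw [h0, Submodule.span_eq_bot]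
          rintro _ ⟨u, hu, rfl⟩
          rw [(Submodule.mem_bot R).1 hu, map_zero]
        rw [h1, Module.length_bot]
        exact zero_le
      | succ i hi =>
        refine (step _ _ (s.step i)).trans ?_
        rw [Fin.val_succ, Nat.cast_add, Nat.cast_one]
        exact add_le_add hi le_rfl
    have h2 := key (Fin.last _)
    have h3 : s (Fin.last _) = ⊤ := ht
    rw [h3, Submodule.top_coe, Set.image_univ, hs, Module.length_top, Fin.val_last] at h2
    exact h2
  · rw [← Module.length_ne_top_iff, not_ne_iff] at h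
    rw [h]
    exact le_top

/-- the local length of a cyclic module -/
theorem ln_quot {P : Type} [CommRing P] (η : Ideal P) [η.IsPrime] (I : Ideal P) :
    ln η (P ⧸ I) = Module.length (Localization.AtPrime η)
      (Localization.AtPrime η ⧸ I.map (algebraMap P (Localization.AtPrime η))) := by
  rw [← Ideal.localized'_eq_map (Localization.AtPrime η) η.primeCompl I]
  exact (LinearEquiv.extendScalarsOfIsLocalization η.primeCompl (Localization.AtPrime η)
    (IsLocalizedModule.iso η.primeCompl (Submodule.toLocalizedQuotient' (Localization.AtPrime η)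
      η.primeCompl (Algebra.linearMap P (Localization.AtPrime η)) I))).length_eq

/-- unramified at `η` -/
theorem unr {R B : Type} [CommRing R] [CommRing B] [Algebra R B] [Module.Finite R B] {κ : Type}
    [Fintype κ] (y : κ → B) (a b : κ → R)
    (rel : ∀ q, y q ^ 2 - algebraMap R B (a q) * y q + algebraMap R B (b q) = 0)
    (gen : Algebra.adjoin R (Set.range y) = ⊤) (η : Ideal B) [hη : η.IsPrime]
    (h : ∀ q, 2 * y q - algebraMap R B (a q) ∉ η) :
    ∀ x ∈ η, ∃ s ∉ η, s * x ∈ (η.comap (algebraMap R B)).map (algebraMap R B) := by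
  classical
  let d : B := ∏ q, (2 * y q - algebraMap R B (a q))
  have hd : d ∉ η := fun hm => by
    obtain ⟨q, -, hq⟩ := Ideal.IsPrime.prod_mem_iff.1 hm
    exact h q hq
  have hD : ∀ x : B, d • KaehlerDifferential.D R B x = 0 := by
    intro x
    have hx : x ∈ Algebra.adjoin R (Set.range y) := gen ▸ Algebra.mem_top
    induction hx using Algebra.adjoin_induction with
    | mem x hx =>
      obtain ⟨q, rfl⟩ := hx
      have h1 := congrArg (KaehlerDifferential.D R B) (rel q)
      rw [map_add, map_sub, sq, Derivation.leibniz, Derivation.leibniz,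
        Derivation.map_algebraMap, Derivation.map_algebraMap, map_zero, smul_zero, add_zero,
        add_zero, ← add_smul, ← sub_smul, ← two_mul] at h1
      obtain ⟨c, hc⟩ : (2 * y q - algebraMap R B (a q)) ∣ d :=
        Finset.dvd_prod_of_mem _ (Finset.mem_univ q)
      rw [hc, mul_comm, mul_smul, h1, smul_zero]
    | algebraMap r => rw [Derivation.map_algebraMap, smul_zero]
    | add u v _ _ hu hv => rw [map_add, smul_add, hu, hv, add_zero]
    | mul u v _ _ hu hv =>
      rw [Derivation.leibniz, smul_add, smul_comm d u, smul_comm d v, hu, hv, smul_zero,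
        smul_zero, add_zero]
  have hO : ∀ m : KaehlerDifferential R B, d • m = 0 := by
    intro m
    have hm : m ∈ Submodule.span B (Set.range (KaehlerDifferential.D R B)) := by
      rw [KaehlerDifferential.span_range_derivation]
      exact Submodule.mem_top
    induction hm using Submodule.span_induction with
    | mem x hx =>
      obtain ⟨x, rfl⟩ := hx
      exact hD x
    | zero => exact smul_zero _
    | add u v _ _ hu hv => rw [smul_add, hu, hv, add_zero]
    | smul c u _ hu => rw [smul_comm, hu, smul_zero]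
  have hU : (⟨η, hη⟩ : PrimeSpectrum B) ∈ Algebra.unramifiedLocus R B := by
    rw [Algebra.unramifiedLocus_eq_compl_support]
    exact Module.notMem_support_iff'.2 fun m => ⟨d, hd, hO m⟩
  have hU' : Algebra.IsUnramifiedAt R η := hU
  haveI : η.LiesOver (η.comap (algebraMap R B)) := ⟨rfl⟩
  letI := Localization.AtPrime.algebraOfLiesOver (η.comap (algebraMap R B)) η
  have hm := ((Algebra.isUnramifiedAt_iff_map_eq R (η.comap (algebraMap R B)) η).1 hU').2
  intro x hx
  have h1 : algebraMap B (Localization.AtPrime η) x ∈ maximalIdeal (Localization.AtPrime η) :=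
    (IsLocalization.AtPrime.to_map_mem_maximal_iff _ η x).2 hx
  rw [← hm, IsScalarTower.algebraMap_eq R B (Localization.AtPrime η), ← Ideal.map_map,
    IsLocalization.algebraMap_mem_map_algebraMap_iff η.primeCompl] at h1
  obtain ⟨s, hs, hsx⟩ := h1
  exact ⟨s, hs, hsx⟩

/-- coordinates -/
theorem coord {R B : Type} [CommRing R] [CommRing B] [Algebra R B] (l : B →ₗ[R] R) (c : Ideal R)
    (z : B) (hz : z ∈ c.map (algebraMap R B)) : l z ∈ c := by
  have h : z ∈ c • (⊤ : Submodule R B) := by
    rw [Ideal.smul_top_eq_map]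
    exact hz
  refine Submodule.smul_induction_on (p := fun w => l w ∈ c) h (fun r hr n _ => ?_)
    fun u v hu hv => ?_
  · show l (r • n) ∈ c
    rw [map_smul]
    exact c.mul_mem_right _ hr
  · show l (u + v) ∈ c
    rw [map_add]
    exact c.add_mem hu hv

/-- going down for a free algebra -/
theorem down {R B : Type} [CommRing R] [CommRing B] [Algebra R B] [Module.Free R B]
    (η : Ideal B) (c : Ideal R) (h : B) (t : R) (hh : h ∉ η)
    (ht : h * algebraMap R B t ∈ c.map (algebraMap R B)) :
    ∃ h₀ ∉ η.comap (algebraMap R B), h₀ * t ∈ c := by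
  by_contra hn
  apply hh
  let e := Module.Free.chooseBasis R B
  have hc : ∀ i, algebraMap R B (e.repr h i) ∈ η := fun i => by
    by_contra hi
    refine hn ⟨e.repr h i, hi, ?_⟩
    have h1 := coord (e.coord i) c _ ht
    rw [mul_comm, ← Algebra.smul_def, map_smul, smul_eq_mul, mul_comm] at h1
    exact h1
  rw [← e.linearCombination_repr h, Finsupp.linearCombination_apply, Finsupp.sum]
  refine Ideal.sum_mem _ fun i _ => ?_
  rw [Algebra.smul_def]
  exact η.mul_mem_right _ (hc i)

/-- the prime of the roots -/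
theorem last {R B : Type} [CommRing R] [CommRing B] [Algebra R B] [Module.Finite R B] {κ : Type}
    (y : κ → B) (a b : κ → R)
    (rel : ∀ q, y q ^ 2 - algebraMap R B (a q) * y q + algebraMap R B (b q) = 0)
    (gen : Algebra.adjoin R (Set.range y) = ⊤) (I 𝔮 : Ideal B) [𝔮.IsPrime] (hy : ∀ q, y q ∈ 𝔮)
    (hab : ∀ q, algebraMap R B (a q) ∈ 𝔮 ∧ algebraMap R B (b q) ∈ 𝔮)
    (hI : I.comap (algebraMap R B) ≤ 𝔮.comap (algebraMap R B)) : I ≤ 𝔮 := by
  obtain ⟨Q, hQI, hQ, hQc⟩ := Ideal.exists_ideal_over_prime_of_isIntegral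
    (𝔮.comap (algebraMap R B)) I hI
  have hiff : ∀ r : R, algebraMap R B r ∈ Q ↔ algebraMap R B r ∈ 𝔮 := fun r => by
    rw [← Ideal.mem_comap, hQc, Ideal.mem_comap]
  have hyQ : ∀ q, y q ∈ Q := fun q => by
    refine hQ.mem_of_pow_mem 2 ?_
    have h1 : y q ^ 2 = algebraMap R B (a q) * y q - algebraMap R B (b q) := by
      linear_combination rel q
    rw [h1]
    exact Q.sub_mem (Q.mul_mem_right _ ((hiff _).2 (hab q).1)) ((hiff _).2 (hab q).2)
  have key : ∀ x : B, ∃ r : R, x - algebraMap R B r ∈ Q ⊓ 𝔮 := by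
    intro x
    have hx : x ∈ Algebra.adjoin R (Set.range y) := gen ▸ Algebra.mem_top
    induction hx using Algebra.adjoin_induction with
    | mem x hx =>
      obtain ⟨q, rfl⟩ := hx
      exact ⟨0, by rw [map_zero, sub_zero]; exact ⟨hyQ q, hy q⟩⟩
    | algebraMap r => exact ⟨r, by rw [sub_self]; exact Ideal.zero_mem _⟩
    | add u v _ _ hu hv =>
      obtain ⟨r, hr⟩ := hu
      obtain ⟨s, hs⟩ := hv
      refine ⟨r + s, ?_⟩
      have h1 : u + v - algebraMap R B (r + s) =
          (u - algebraMap R B r) + (v - algebraMap R B s) := by rw [map_add]; ring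
      rw [h1]
      exact Ideal.add_mem _ hr hs
    | mul u v _ _ hu hv =>
      obtain ⟨r, hr⟩ := hu
      obtain ⟨s, hs⟩ := hv
      refine ⟨r * s, ?_⟩
      have h1 : u * v - algebraMap R B (r * s) =
          v * (u - algebraMap R B r) + algebraMap R B r * (v - algebraMap R B s) := by
        rw [map_mul]; ring
      rw [h1]
      exact Ideal.add_mem _ (Ideal.mul_mem_left _ _ hr) (Ideal.mul_mem_left _ _ hs)
  intro x hx
  obtain ⟨r, hr⟩ := key x
  have h1 : algebraMap R B r ∈ Q := by
    have h2 := Q.sub_mem (hQI hx) hr.1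
    rwa [sub_sub_cancel] at h2
  have h3 := 𝔮.add_mem hr.2 ((hiff r).1 h1)
  rwa [sub_add_cancel] at h3

theorem mem_mk {P : Type} [CommRing P] {𝔯 I : Ideal P} (h : 𝔯 ≤ I) (x : P) :
    Ideal.Quotient.mk 𝔯 x ∈ I.map (Ideal.Quotient.mk 𝔯) ↔ x ∈ I := by
  rw [Ideal.mem_quotient_iff_mem_sup, sup_eq_left.2 h]

end EtlP

open EtlP

theorem etl : ETL := by
  intro P₀ P _ _ _ _ κ _ y a b 𝔯 C
  haveI := C.free
  haveI := C.fin
  have ham : ∀ r : P₀, algebraMap P₀ (P ⧸ 𝔯) r = Ideal.Quotient.mk 𝔯 (algebraMap P₀ P r) :=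
    fun r => rfl
  have hamc : algebraMap P₀ (P ⧸ 𝔯) = (Ideal.Quotient.mk 𝔯).comp (algebraMap P₀ P) := rfl
  have rel : ∀ q, Ideal.Quotient.mk 𝔯 (y q) ^ 2 -
      algebraMap P₀ (P ⧸ 𝔯) (a q) * Ideal.Quotient.mk 𝔯 (y q) + algebraMap P₀ (P ⧸ 𝔯) (b q) = 0 :=
    fun q => by
      rw [ham, ham, ← map_pow, ← map_mul, ← map_sub, ← map_add, Ideal.Quotient.eq_zero_iff_mem]
      exact C.rel q
  have hpr : ∀ (η : Ideal P) [η.IsPrime], 𝔯 ≤ η → (η.map (Ideal.Quotient.mk 𝔯)).IsPrime :=
    fun η _ h => Ideal.map_isPrime_of_surjective Ideal.Quotient.mk_surjective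
      (by rw [Ideal.mk_ker]; exact h)
  have hco : ∀ I : Ideal P, 𝔯 ≤ I → (I.map (Ideal.Quotient.mk 𝔯)).comap (algebraMap P₀ (P ⧸ 𝔯)) =
      I.comap (algebraMap P₀ P) := fun I h => by
    ext r
    rw [Ideal.mem_comap, Ideal.mem_comap, ham, mem_mk h]
  have hmp : ∀ (c : Ideal P₀) (x : P), Ideal.Quotient.mk 𝔯 x ∈ c.map (algebraMap P₀ (P ⧸ 𝔯)) ↔
      x ∈ c.map (algebraMap P₀ P) ⊔ 𝔯 := fun c x => by
    rw [hamc, ← Ideal.map_map, Ideal.mem_quotient_iff_mem_sup]
  refine ⟨fun η _ hη => ⟨?_, fun hy 𝔠 => ?_, fun 𝔠 h t hh ht => ?_⟩,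
    fun I 𝔮 _ hI hq hy hab hc => ?_⟩
  · haveI : Module.Finite P₀ (P ⧸ η) :=
      Module.Finite.of_surjective (Ideal.Quotient.factorₐ P₀ hη).toLinearMap
        (Ideal.Quotient.factor_surjective hη)
    haveI : η.LiesOver (η.comap (algebraMap P₀ P)) := ⟨rfl⟩
    haveI : Module.Finite (P₀ ⧸ η.comap (algebraMap P₀ P)) (P ⧸ η) :=
      Module.Finite.of_restrictScalars_finite P₀ _ _
    exact dim_eq (Ideal.quotientMap_injective (I := η) (f := algebraMap P₀ P))
  · haveI := hpr η hη
    have hu := unr (fun q => Ideal.Quotient.mk 𝔯 (y q)) a b rel C.gen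
      (η.map (Ideal.Quotient.mk 𝔯)) fun q hq => hy q (by
        rw [← mem_mk hη, map_sub, map_mul, map_ofNat]
        exact hq)
    rw [hco η hη] at hu
    rw [ln_quot, ln_quot]
    let φ := Localization.localRingHom (η.comap (algebraMap P₀ P)) η (algebraMap P₀ P) rfl
    have hφ : ∀ r : P₀, φ (algebraMap P₀ _ r) = algebraMap P _ (algebraMap P₀ P r) :=
      fun r => Localization.localRingHom_to_map _ _ _ rfl r
    let J := (𝔠.map (algebraMap P₀ P) ⊔ 𝔯).map (algebraMap P (Localization.AtPrime η))
    let J₀ := 𝔠.map (algebraMap P₀ (Localization.AtPrime (η.comap (algebraMap P₀ P))))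
    have hJ : J₀ ≤ Submodule.comap φ.toSemilinearMap J := by
      refine Ideal.map_le_iff_le_comap.2 fun r hr => ?_
      show φ (algebraMap P₀ _ r) ∈ J
      rw [hφ]
      exact Ideal.mem_map_of_mem _ (Ideal.mem_sup_left (Ideal.mem_map_of_mem _ hr))
    refine len_le φ (Submodule.mapQ J₀ J φ.toSemilinearMap hJ)
      (𝔯.map (algebraMap P (Localization.AtPrime η))) (fun z hz n => ?_) ?_ ?_
    · obtain ⟨n, rfl⟩ := Submodule.Quotient.mk_surjective _ n
      rw [← Submodule.Quotient.mk_smul, Submodule.Quotient.mk_eq_zero]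
      exact J.mul_mem_right n (Ideal.map_mono le_sup_right hz)
    · rw [← Localization.AtPrime.map_eq_maximalIdeal, Ideal.map_le_iff_le_comap]
      intro x hx
      obtain ⟨s, hs, hsx⟩ := hu _ ((mem_mk hη x).2 hx)
      obtain ⟨s, rfl⟩ := Ideal.Quotient.mk_surjective s
      rw [← map_mul, hmp] at hsx
      rw [mem_mk hη] at hs
      have hun : IsUnit (algebraMap P (Localization.AtPrime η) s) :=
        IsLocalization.map_units _ (⟨s, hs⟩ : η.primeCompl)
      rw [Ideal.mem_comap, ← Ideal.unit_mul_mem_iff_mem _ hun, ← map_mul]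
      have hle : (η.comap (algebraMap P₀ P)).map (algebraMap P₀ P) ⊔ 𝔯 ≤
          ((maximalIdeal (Localization.AtPrime (η.comap (algebraMap P₀ P)))).map φ ⊔
            𝔯.map (algebraMap P (Localization.AtPrime η))).comap
              (algebraMap P (Localization.AtPrime η)) := by
        refine sup_le (Ideal.map_le_iff_le_comap.2 fun r hr => ?_) fun r hr =>
          Ideal.mem_sup_right (Ideal.mem_map_of_mem _ hr)
        rw [Ideal.mem_comap, Ideal.mem_comap, ← hφ]
        exact Ideal.mem_sup_left (Ideal.mem_map_of_mem _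
          ((IsLocalization.AtPrime.to_map_mem_maximal_iff _ _ r).2 hr))
      exact hle hsx
    · rw [eq_top_iff]
      rintro n -
      obtain ⟨n, rfl⟩ := Submodule.Quotient.mk_surjective _ n
      have h1 : (Submodule.Quotient.mk n : Localization.AtPrime η ⧸ J) =
          n • Submodule.mapQ J₀ J φ.toSemilinearMap hJ (Submodule.Quotient.mk 1) := by
        rw [Submodule.mapQ_apply, ← Submodule.Quotient.mk_smul, smul_eq_mul]
        show _ = Submodule.Quotient.mk (n * φ 1)
        rw [map_one, mul_one]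
      rw [h1]
      exact Submodule.smul_mem _ _ (Submodule.subset_span ⟨_, rfl⟩)
  · have h1 := down (η.map (Ideal.Quotient.mk 𝔯)) 𝔠 (Ideal.Quotient.mk 𝔯 h) t
      (fun hm => hh ((mem_mk hη h).1 hm)) (by rw [ham, ← map_mul, hmp]; exact ht)
    rwa [hco η hη] at h1
  · haveI := hpr 𝔮 hq
    have h1 := last (fun q => Ideal.Quotient.mk 𝔯 (y q)) a b rel C.gen
      (I.map (Ideal.Quotient.mk 𝔯)) (𝔮.map (Ideal.Quotient.mk 𝔯))
      (fun q => (mem_mk hq _).2 (hy q))
      (fun q => ⟨(mem_mk hq _).2 (hab q).1, (mem_mk hq _).2 (hab q).2⟩)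
      (by rw [hco I hI, hco 𝔮 hq]; exact hc)
    exact fun x hx => (mem_mk hq x).1 (h1 ((mem_mk hI x).2 hx))

end Vale.Agent.P022D.PA
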