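import Vale.Agent.P022D.PA.Defs

/-!
P022D, block PA: exactness of patching at a prime, and a large prime in the support.
-/

set_option linter.all false

noncomputable section

namespace Vale.Agent.P022D.PA

open IsLocalRing Filter

namespace Exa

variable {P : Type} [CommRing P]

theorem cv_mul [IsLocalRing P] {U : Filter ℕ} {z w : ℕ → P} {a b : P} (h : Cv U z a)
    (k : Cv U w b) : Cv U (fun n => z n * w n) (a * b) := fun j =>
  ((h j).and (k j)).mono fun n hn => by
    have e : z n * w n - a * b = (z n - a) * w n + a * (w n - b) := by ring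
    rw [e]
    exact Ideal.add_mem _ (Ideal.mul_mem_right _ _ hn.1) (Ideal.mul_mem_left _ _ hn.2)

theorem map_mem {X Y : Type} [AddCommGroup X] [Module P X] [AddCommGroup Y] [Module P Y]
    (f : X →ₗ[P] Y) (I : Ideal P) {x : X} (h : x ∈ I • (⊤ : Submodule P X)) :
    f x ∈ I • (⊤ : Submodule P Y) := by
  have : f x ∈ (I • (⊤ : Submodule P X)).map f := Submodule.mem_map_of_mem h
  rw [Submodule.map_smul''] at this
  exact Submodule.smul_mono le_rfl le_top this

theorem kill {ι X Y : Type} [AddCommGroup X] [Module P X] [AddCommGroup Y] [Module P Y]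
    (u : ι → P) (β : X →ₗ[P] Y) (h : ∀ i x, β (u i • x) = 0) :
    J1 u • (⊤ : Submodule P X) ≤ LinearMap.ker β := by
  refine Submodule.smul_le.mpr fun r hr x _ => ?_
  refine Submodule.span_induction (p := fun r _ => r • x ∈ LinearMap.ker β) ?_ ?_ ?_ ?_ hr
  · rintro _ ⟨i, rfl⟩
    exact h i x
  · rw [zero_smul]; exact Submodule.zero_mem _
  · intro a b _ _ ha hb
    rw [add_smul]; exact Submodule.add_mem _ ha hb
  · intro c a _ ha
    rw [smul_eq_mul, mul_smul]; exact Submodule.smul_mem _ c ha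

theorem step {A B C : Type} [AddCommGroup A] [Module P A] [AddCommGroup B] [Module P B]
    [AddCommGroup C] [Module P C] (f : A →ₗ[P] B) (g : B →ₗ[P] C) (J I : Ideal P) (D : P)
    (c t : ℕ) (hf : ∀ x, f x ∈ J • (⊤ : Submodule P B) → D • x ∈ J • (⊤ : Submodule P A))
    (hex : Function.Exact f g) (hg : Function.Surjective g)
    (hT : Tight I (D ^ 2) c (C ⧸ J • (⊤ : Submodule P C))) (x : A)
    (hx : f x ∈ J • (⊤ : Submodule P B) ⊔ I ^ (t + c) • (⊤ : Submodule P B)) :
    (D * D * D) • x ∈ J • (⊤ : Submodule P A) ⊔ I ^ t • (⊤ : Submodule P A) := by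
  let p : (B ⧸ J • (⊤ : Submodule P B)) →ₗ[P] (C ⧸ J • (⊤ : Submodule P C)) :=
    Submodule.mapQ _ _ g fun y hy => map_mem g J hy
  have hp : Function.Surjective p := by
    intro q
    obtain ⟨z, rfl⟩ := Submodule.Quotient.mk_surjective _ q
    obtain ⟨y, rfl⟩ := hg z
    exact ⟨Submodule.Quotient.mk y, rfl⟩
  have h1 := hT _ p hp t (Submodule.Quotient.mk (f x))
    (by
      change Submodule.Quotient.mk (g (f x)) = 0
      rw [hex.apply_apply_eq_zero, Submodule.Quotient.mk_zero])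
    (by
      obtain ⟨y, hy, z, hz, e⟩ := Submodule.mem_sup.mp hx
      rw [← e, Submodule.Quotient.mk_add, (Submodule.Quotient.mk_eq_zero _).mpr hy, zero_add]
      exact map_mem (Submodule.mkQ _) _ hz)
  have h2 : LinearMap.ker p ≤
      (⊤ : Submodule P A).map ((Submodule.mkQ (J • (⊤ : Submodule P B))).comp f) := by
    intro q hq
    obtain ⟨y, rfl⟩ := Submodule.Quotient.mk_surjective _ q
    have h3 : g y ∈ J • (⊤ : Submodule P C) := (Submodule.Quotient.mk_eq_zero _).mp hq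
    rw [← LinearMap.range_eq_top.mpr hg, LinearMap.range_eq_map, ← Submodule.map_smul''] at h3
    obtain ⟨y', hy', e⟩ := h3
    obtain ⟨w, hw⟩ := (hex (y - y')).mp (by rw [map_sub, e, sub_self])
    refine ⟨w, trivial, ?_⟩
    change Submodule.Quotient.mk (f w) = _
    rw [hw, Submodule.Quotient.mk_sub, (Submodule.Quotient.mk_eq_zero _).mpr hy', sub_zero]
  have h4 := Submodule.smul_mono le_rfl h2 h1
  rw [← Submodule.map_smul''] at h4
  obtain ⟨z, hz, e⟩ := h4
  have h5 : f (D ^ 2 • x - z) ∈ J • (⊤ : Submodule P B) := by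
    rw [← Submodule.Quotient.mk_eq_zero, map_sub, map_smul, Submodule.Quotient.mk_sub,
      Submodule.Quotient.mk_smul, ← e]
    exact sub_self _
  have e2 : (D * D * D) • x = D • (D ^ 2 • x - z) + D • z := by
    rw [smul_sub, sub_add_cancel, ← mul_smul]
    congr 1
    ring
  rw [e2]
  exact Submodule.add_mem_sup (hf _ h5) (Submodule.smul_mem _ D hz)

end Exa

open Exa in
theorem exa (hREG : REG) (hINJ : INJ) (hTI : TI0) (hBOX : BOX) (hSMU : SMU) (hREX : REX)
    (hFG : FG) (hLEN : LEN) : EXA := by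
  intro P _ _ U hU ι _ u D A B C _ _ _ _ _ _ G G' _ _ _ _ f g hf hex hg hA hB hC a d ha hd 𝔭 h𝔭
    ha𝔭 hd𝔭
  haveI := hFG P U A hA
  haveI := hC.fin
  obtain ⟨c, hc⟩ := hTI P (maximalIdeal P) G'
  have hT : ∀ n, Tight (maximalIdeal P) (D n ^ 2) c
      (C n ⧸ J1 (u n) • (⊤ : Submodule P (C n))) := by
    intro n
    obtain ⟨β, b1, b2, b3⟩ := hC.fib n
    refine hc (D n) _ (Submodule.liftQ _ β (kill (u n) β b1)) (fun q hq => ?_) fun y => ?_
    · obtain ⟨x, rfl⟩ := Submodule.Quotient.mk_surjective _ q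
      rw [← Submodule.Quotient.mk_smul, Submodule.Quotient.mk_eq_zero]
      exact b2 x hq
    · obtain ⟨x, hx⟩ := b3 y
      exact ⟨Submodule.Quotient.mk x, hx⟩
  have inj : ∀ v, Lmap (U : Filter ℕ) f v = 0 → ∃ h ∉ 𝔭, h • v = 0 := by
    refine hINJ P 𝔭 _ _ (Lmap (U : Filter ℕ) f) ι a ha𝔭
      (hREG P U hU ι u D B G hB a d ha hd 𝔭 ha𝔭 hd𝔭) fun v hv => ⟨d * d * d, fun h => ?_, ?_⟩
    · rcases h𝔭.mem_or_mem h with h | h
      · exact (h𝔭.mem_or_mem h).elim hd𝔭 hd𝔭
      · exact hd𝔭 h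
    · obtain ⟨x, rfl⟩ := Submodule.Quotient.mk_surjective _ v
      have h1 := (hBOX P U hU B ι u a ha fun n => f n (x n)).mp hv
      rw [← hSMU P U A _ _ (cv_mul (cv_mul hd hd) hd) x]
      exact (hBOX P U hU A ι u a ha _).mpr fun t => (h1 (t + c)).mono fun n hn =>
        step (f n) (g n) _ _ (D n) c t (hf n) (hex n) (hg n) (hT n) (x n) hn
  refine ⟨inj, fun η hη hle => ?_⟩
  obtain ⟨e1, e2⟩ := hREX P U hU A B C f g hex hg
  have h1 : (1 : P) ∉ η := (Ideal.ne_top_iff_one η).mp hη.ne_top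
  refine (hLEN P η _ _ _ (Lmap (U : Filter ℕ) f) (Lmap (U : Filter ℕ) g) e1.apply_apply_eq_zero
    fun y hy => ⟨1, h1, by rw [one_smul]; exact (e1 y).mp hy⟩).2 (fun x hx => ?_)
    fun z => ⟨1, h1, by rw [one_smul]; exact e2 z⟩
  obtain ⟨h, k1, k2⟩ := inj x hx
  exact ⟨h, fun k => k1 (hle k), k2⟩

open Exa in
theorem eta (hREG : REG) (hCHN : CHN) (hBOX : BOX) (hLIMI : LIMI) (hFG : FG) : ETA := by
  intro P _ _ U hU ι _ u D M _ _ G _ _ hM a d ha hd 𝔭 h𝔭 hG hd𝔭
  haveI := hFG P U M hM.gen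
  haveI := hM.fin
  choose β b1 b2 b3 using hM.fib
  have h1 : ∀ i, a i ∈ 𝔭 := by
    intro i
    have h := (hLIMI P U _ _ (Module.annihilator P G) (cv_mul (ha i) hd)).1
      (Eventually.of_forall fun n => Module.mem_annihilator.mpr fun y => by
        obtain ⟨x, hx⟩ := b3 n y
        rw [mul_smul, ← hx, ← map_smul, b1])
    exact (h𝔭.mem_or_mem (hG h)).resolve_right hd𝔭
  refine ⟨h1, hCHN P 𝔭 _ ι a (hREG P U hU ι u D M G hM a d ha hd 𝔭 h1 hd𝔭) fun t ht => ?_⟩
  refine (h𝔭.mem_or_mem (hG (Module.mem_annihilator.mpr fun y => ?_))).resolve_right hd𝔭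
  choose x hx using fun n => b3 n y
  have h2 := Module.mem_annihilator.mp ht (Submodule.Quotient.mk (Submodule.Quotient.mk x))
  rw [← Submodule.Quotient.mk_smul, Submodule.Quotient.mk_eq_zero,
    ← Submodule.Quotient.mk_smul] at h2
  have h3 := (hBOX P U hU M ι u a ha _).mp h2
  have h4 : (t * d) • y ∈ (⨅ j : ℕ, maximalIdeal P ^ j • (⊤ : Submodule P G)) := by
    refine (Submodule.mem_iInf _).mpr fun j => ?_
    obtain ⟨n, k1, k2⟩ := ((h3 j).and (hd j)).exists
    obtain ⟨y1, hy1, y2, hy2, e⟩ := Submodule.mem_sup.mp k1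
    have e1 : (t * D n) • y = β n y2 := by
      rw [mul_smul, ← hx n, ← map_smul]
      change β n ((t • x) n) = _
      rw [← e, map_add, kill (u n) (β n) (b1 n) hy1, zero_add]
    have e2 : (t * d) • y = β n y2 - (D n - d) • (t • y) := by
      rw [← e1, ← mul_smul, ← sub_smul]
      congr 1
      ring
    rw [e2]
    exact Submodule.sub_mem _ (map_mem (β n) _ hy2) (Submodule.smul_mem_smul k2 trivial)
  rwa [Ideal.iInf_pow_smul_eq_bot_of_isLocalRing _ (maximalIdeal.isMaximal P).ne_top,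
    Submodule.mem_bot] at h4

end Vale.Agent.P022D.PA
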