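import Vale.Agent.P022D.PA.Defs

/-!
P022D, block PA: Krull intersection at a prime, additivity and vanishing of the local length.
-/

set_option linter.all false

noncomputable section

namespace Vale.Agent.P022D.PA

theorem kru : KRU := by
  intro P _ _ 𝔭 hp X _ _ _ K v H
  obtain ⟨k, hk⟩ := Ideal.exists_pow_inf_eq_pow_smul 𝔭 (Submodule.span P {K.mkQ v})
  obtain ⟨h, hh, hv⟩ := H (k + 1)
  have h1 : h • K.mkQ v ∈ 𝔭 ^ (k + 1) • (⊤ : Submodule P (X ⧸ K)) := by
    have h2 : K.mkQ (h • v) ∈ (K ⊔ 𝔭 ^ (k + 1) • (⊤ : Submodule P X)).map K.mkQ :=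
      Submodule.mem_map_of_mem hv
    rw [Submodule.map_sup, Submodule.mkQ_map_self, bot_sup_eq, Submodule.map_smul'', map_smul]
      at h2
    exact Submodule.smul_mono le_rfl le_top h2
  have h3 : h • K.mkQ v ∈ 𝔭 ^ (k + 1) • (⊤ : Submodule P (X ⧸ K)) ⊓ Submodule.span P {K.mkQ v} :=
    ⟨h1, Submodule.smul_mem _ _ (Submodule.mem_span_singleton_self _)⟩
  rw [hk (k + 1) (Nat.le_succ k), Nat.add_sub_cancel_left, pow_one] at h3
  have h4 : h • K.mkQ v ∈ 𝔭 • Submodule.span P {K.mkQ v} :=
    Submodule.smul_mono le_rfl inf_le_right h3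
  obtain ⟨p, hp1, hp2⟩ := Submodule.mem_smul_span_singleton.1 h4
  refine ⟨h - p, fun hc => hh (by simpa using 𝔭.add_mem hc hp1), ?_⟩
  rw [← Submodule.Quotient.mk_eq_zero]
  change K.mkQ ((h - p) • v) = 0
  rw [map_smul, sub_smul, hp2, sub_self]

theorem len_le {R A B C : Type} [CommRing R] [AddCommGroup A] [Module R A] [AddCommGroup B]
    [Module R B] [AddCommGroup C] [Module R C] (f : A →ₗ[R] B) (g : B →ₗ[R] C)
    (H : Function.Exact f g) : Module.length R B ≤ Module.length R A + Module.length R C := by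
  have h1 : Function.Exact (LinearMap.range f).subtype g.rangeRestrict := by
    rw [LinearMap.exact_iff, LinearMap.ker_rangeRestrict, Submodule.range_subtype]
    exact LinearMap.exact_iff.1 H
  rw [Module.length_eq_add_of_exact (LinearMap.range f).subtype g.rangeRestrict
    (Submodule.subtype_injective _) (LinearMap.surjective_rangeRestrict g) h1]
  exact add_le_add (Module.length_le_of_surjective f.rangeRestrict
    (LinearMap.surjective_rangeRestrict f))
    (Module.length_le_of_injective (LinearMap.range g).subtype (Submodule.subtype_injective _))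

theorem loc_zero {P X : Type} [CommRing P] [AddCommGroup X] [Module P X] (S : Submonoid P)
    (x : X) (s : S) : LocalizedModule.mk x s = 0 ↔ ∃ h ∈ S, h • x = 0 := by
  rw [← LocalizedModule.zero_mk s, LocalizedModule.mk_eq]
  constructor
  · rintro ⟨u, hu⟩
    refine ⟨(u * s : S), (u * s).2, ?_⟩
    rw [smul_zero, smul_zero, ← mul_smul] at hu
    exact hu
  · rintro ⟨h, hS, hx⟩
    refine ⟨⟨h, hS⟩, ?_⟩
    rw [smul_zero, smul_zero, smul_comm]
    change s • h • x = 0
    rw [hx, smul_zero]

theorem len : LEN := by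
  intro P _ η _ A B C _ _ _ _ _ _ f g h0 h1
  have hex : Function.Exact (LocalizedModule.map η.primeCompl f)
      (LocalizedModule.map η.primeCompl g) := by
    intro y
    constructor
    · induction y using LocalizedModule.induction_on with
      | h y s =>
        intro hy
        rw [LocalizedModule.map_mk, loc_zero] at hy
        obtain ⟨u, hu, hy⟩ := hy
        obtain ⟨h, hh, x, hx⟩ := h1 (u • y) (by rw [map_smul, hy])
        refine ⟨LocalizedModule.mk x ((⟨h, hh⟩ * ⟨u, hu⟩) * s), ?_⟩
        rw [LocalizedModule.map_mk, hx, ← mul_smul]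
        exact LocalizedModule.mk_cancel_common_left (⟨h, hh⟩ * ⟨u, hu⟩ : η.primeCompl) s y
    · rintro ⟨x, rfl⟩
      induction x using LocalizedModule.induction_on with
      | h x s => rw [LocalizedModule.map_mk, LocalizedModule.map_mk, h0, LocalizedModule.zero_mk]
  refine ⟨len_le _ _ hex, fun h2 h3 => Module.length_eq_add_of_exact _ _ ?_ ?_ hex⟩
  · rw [injective_iff_map_eq_zero]
    intro x
    induction x using LocalizedModule.induction_on with
    | h x s =>
      intro hx
      rw [LocalizedModule.map_mk, loc_zero] at hx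
      obtain ⟨u, hu, hx⟩ := hx
      obtain ⟨h, hh, hz⟩ := h2 (u • x) (by rw [map_smul, hx])
      rw [loc_zero]
      exact ⟨h * u, η.primeCompl.mul_mem hh hu, by rw [mul_smul, hz]⟩
  · intro z
    induction z using LocalizedModule.induction_on with
    | h z s =>
      obtain ⟨h, hh, y, hy⟩ := h3 z
      refine ⟨LocalizedModule.mk y (⟨h, hh⟩ * s), ?_⟩
      rw [LocalizedModule.map_mk, hy]
      exact LocalizedModule.mk_cancel_common_left (⟨h, hh⟩ : η.primeCompl) s z

theorem len0 : LEN0 := by
  intro P _ η hη X _ _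
  have h1 : ln η X = 0 ↔ Subsingleton (LocalizedModule η.primeCompl X) :=
    Module.length_eq_zero_iff
  refine ⟨?_, fun hf => ?_⟩
  · rw [h1, LocalizedModule.subsingleton_iff]
    rfl
  · rw [h1, ← Module.mem_support_iff_of_finite (p := ⟨η, hη⟩), Module.notMem_support_iff]

end Vale.Agent.P022D.PA
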