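import Vale.Agent.P022D.PA.Defs

/-!
P022D, block PA: limits along an ultrafilter.
-/

noncomputable section

namespace Vale.Agent.P022D.PA

open IsLocalRing Filter

theorem lim : LIM := by
  intro P _ hB U z
  have _ := hB.cpl
  have hf : Finite (P ⧸ maximalIdeal P) := hB.fin
  have h1 : ∀ j : ℕ, ∃ c : P, ∀ᶠ n in (U : Filter ℕ), z n - c ∈ maximalIdeal P ^ j := by
    intro j
    have _ : Finite (P ⧸ maximalIdeal P ^ j) :=
      Ideal.finite_quotient_pow (IsNoetherian.noetherian _) j
    obtain ⟨c, hc⟩ := Ultrafilter.eq_pure_of_finite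
      (U.map fun n => Ideal.Quotient.mk (maximalIdeal P ^ j) (z n))
    obtain ⟨c, rfl⟩ := Ideal.Quotient.mk_surjective c
    have h2 : {Ideal.Quotient.mk (maximalIdeal P ^ j) c} ∈
        U.map fun n => Ideal.Quotient.mk (maximalIdeal P ^ j) (z n) := by
      rw [hc]; exact Ultrafilter.mem_pure.2 rfl
    exact ⟨c, Filter.Eventually.mono (Ultrafilter.mem_map.1 h2) fun n hn =>
      Ideal.Quotient.eq.1 hn⟩
  choose c hc using h1
  obtain ⟨a, ha⟩ := IsPrecomplete.prec (I := maximalIdeal P) (M := P) inferInstance (f := c) (by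
    intro m n hmn
    rw [SModEq.sub_mem, smul_eq_mul, Ideal.mul_top]
    obtain ⟨k, h3, h4⟩ := ((hc m).and (hc n)).exists
    have := Ideal.sub_mem _ (Ideal.pow_le_pow_right hmn h4) h3
    rwa [sub_sub_sub_cancel_left] at this)
  refine ⟨a, fun j => (hc j).mono fun n hn => ?_⟩
  have h5 := ha j
  rw [SModEq.sub_mem, smul_eq_mul, Ideal.mul_top] at h5
  have := Ideal.add_mem _ hn h5
  rwa [sub_add_sub_cancel] at this

theorem mem_of_sup {P : Type} [CommRing P] [IsLocalRing P] [IsNoetherianRing P] (I : Ideal P)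
    (a : P) (h : ∀ j : ℕ, a ∈ I ⊔ maximalIdeal P ^ j) : a ∈ I := by
  have h1 := Ideal.iInf_pow_smul_eq_bot_of_isLocalRing (M := P ⧸ I) (maximalIdeal P)
    (maximalIdeal.isMaximal P).ne_top
  rw [← Ideal.Quotient.eq_zero_iff_mem, ← Submodule.mem_bot P, ← h1, Submodule.mem_iInf]
  intro j
  obtain ⟨b, hb, c, hc, rfl⟩ := Submodule.mem_sup.1 (h j)
  rw [map_add, Ideal.Quotient.eq_zero_iff_mem.2 hb, zero_add]
  have e : Ideal.Quotient.mk I c = c • (1 : P ⧸ I) := by
    rw [Algebra.smul_def, mul_one]; rfl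
  rw [e]
  exact Submodule.smul_mem_smul hc Submodule.mem_top

theorem limi : LIMI := by
  intro P _ hB U z a I hz
  refine ⟨fun h => mem_of_sup I a fun j => ?_, fun j h ha => ?_⟩
  · obtain ⟨n, h1, h2⟩ := (h.and (hz j)).exists
    have := Ideal.sub_mem _ (Ideal.mem_sup_left h1) (Ideal.mem_sup_right (S := I) h2)
    rwa [sub_sub_cancel] at this
  · obtain ⟨n, h1, h2⟩ := (h.and (hz j)).exists
    have := Ideal.add_mem _ (Ideal.mem_sup_right (S := I) h2) (Ideal.mem_sup_left ha)
    rw [sub_add_cancel] at this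
    exact h1 this

theorem smu : SMU := by
  intro P _ _ U M _ _ z a hz x
  rw [← Submodule.Quotient.mk_smul, Submodule.Quotient.eq]
  intro j
  refine (hz j).mono fun n hn => ?_
  change z n • x n - a • x n ∈ _
  rw [← sub_smul]
  exact Submodule.smul_mem_smul hn Submodule.mem_top

theorem diag : DIAG := by
  intro P _ _ U hU M _ _ K x hx
  classical
  let p : ℕ → ℕ → Prop := fun n j =>
    x n ∈ K n ⊔ maximalIdeal P ^ j • (⊤ : Submodule P (M n))
  have h0 : ∀ n, p n (Nat.findGreatest (p n) n) := fun n =>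
    Nat.findGreatest_spec (P := p n) (Nat.zero_le n) (Submodule.mem_sup_right (by simp))
  choose y hy w hw e using fun n => Submodule.mem_sup.1 (h0 n)
  refine ⟨y, hy, (Submodule.Quotient.eq _).2 fun j => ?_⟩
  refine ((hx j).and (hU (eventually_ge_atTop j))).mono fun n hn => ?_
  have h1 : j ≤ Nat.findGreatest (p n) n := Nat.le_findGreatest hn.2 hn.1
  change x n - y n ∈ _
  rw [← e, add_sub_cancel_left]
  exact Submodule.smul_mono_left (Ideal.pow_le_pow_right h1) (hw n)

end Vale.Agent.P022D.PA
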