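import Vale.Agent.P022D.PA.Defs

/-!
P022D, block PA: the parameters are a regular sequence on the patched module at a good prime.
-/

set_option linter.all false

noncomputable section

namespace Vale.Agent.P022D.PA

open IsLocalRing Filter

section aux

variable {P : Type} [CommRing P] {ι : Type} [DecidableEq ι]

/-- the box ideal without the variable `i` -/
def Rr (u : ι → P) (α : ι → ℕ) (i : ι) : Ideal P :=
  Ideal.span ((fun k => u k ^ α k) '' {k | k ≠ i})

theorem Jb_update (u : ι → P) (α : ι → ℕ) (i : ι) (e : ℕ) :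
    Jb u (Function.update α i e) = Rr u α i ⊔ Ideal.span {u i ^ e} := by
  apply le_antisymm
  · refine Ideal.span_le.2 ?_
    rintro _ ⟨k, rfl⟩
    by_cases hk : k = i
    · subst hk
      simp only [Function.update_self]
      exact Ideal.mem_sup_right (Ideal.subset_span rfl)
    · simp only [Function.update_of_ne hk]
      exact Ideal.mem_sup_left (Ideal.subset_span ⟨k, hk, rfl⟩)
  · refine sup_le (Ideal.span_le.2 ?_) (Ideal.span_le.2 ?_)
    · rintro _ ⟨k, hk, rfl⟩
      refine Ideal.subset_span ⟨k, ?_⟩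
      simp only [Function.update_of_ne hk]
    · rintro _ rfl
      refine Ideal.subset_span ⟨i, ?_⟩
      simp only [Function.update_self]

variable {X : Type} [AddCommGroup X] [Module P X]

theorem mem_update (u : ι → P) (α : ι → ℕ) (i : ι) (e : ℕ) (x : X) :
    x ∈ Jb u (Function.update α i e) • (⊤ : Submodule P X) ↔
      ∃ w ∈ Rr u α i • (⊤ : Submodule P X), ∃ y : X, x = w + u i ^ e • y := by
  rw [Jb_update, Submodule.sup_smul, Submodule.mem_sup]
  constructor
  · rintro ⟨w, hw, z, hz, rfl⟩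
    rw [Submodule.ideal_span_singleton_smul, Submodule.mem_smul_pointwise_iff_exists] at hz
    obtain ⟨y, -, rfl⟩ := hz
    exact ⟨w, hw, y, rfl⟩
  · rintro ⟨w, hw, y, rfl⟩
    exact ⟨w, hw, _, Submodule.smul_mem_smul (Ideal.subset_span rfl) Submodule.mem_top, rfl⟩

theorem fin1 (hcol : COL) [Fintype ι] (u : ι → P) (j : ℕ) (hs : Soc u j X) (α : ι → ℕ) (i : ι)
    (e : ℕ) (h1 : ∀ k, 1 ≤ α k) (hα : ∀ k, α k ≤ j + 1) (he : e ≤ j) (I : Ideal P) (D : P)
    (c t : ℕ)
    (ht : Tight I D c (X ⧸ Jb u (Function.update α i e) • (⊤ : Submodule P X))) (x : X)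
    (hx : u i ^ e • x ∈ Jb u (Function.update α i (e + 1)) • (⊤ : Submodule P X) ⊔
      I ^ (t + c) • (⊤ : Submodule P X)) :
    D • x ∈ Jb u (Function.update α i 1) • (⊤ : Submodule P X) ⊔ I ^ t • (⊤ : Submodule P X) := by
  set K1 : Submodule P X := Jb u (Function.update α i (e + 1)) • ⊤ with hK1
  set K0 : Submodule P X := Jb u (Function.update α i e) • ⊤ with hK0
  have hle : K1 ≤ K0 := by
    intro z hz
    obtain ⟨w, hw, y, rfl⟩ := (mem_update u α i (e + 1) z).1 hz
    exact (mem_update u α i e _).2 ⟨w, hw, u i • y, by rw [pow_succ, mul_smul]⟩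
  let p : (X ⧸ K1) →ₗ[P] (X ⧸ K0) := Submodule.mapQ K1 K0 LinearMap.id hle
  have hp : Function.Surjective p := by
    intro z
    obtain ⟨y, rfl⟩ := K0.mkQ_surjective z
    exact ⟨K1.mkQ y, rfl⟩
  have h0 : p (K1.mkQ (u i ^ e • x)) = 0 := by
    show K0.mkQ (u i ^ e • x) = 0
    rw [Submodule.mkQ_apply, Submodule.Quotient.mk_eq_zero]
    exact (mem_update u α i e _).2 ⟨0, Submodule.zero_mem _, x, by rw [zero_add]⟩
  have h2 : K1.mkQ (u i ^ e • x) ∈ I ^ (t + c) • (⊤ : Submodule P (X ⧸ K1)) := by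
    obtain ⟨k, hk, w, hw, hkw⟩ := Submodule.mem_sup.1 hx
    rw [← hkw, map_add]
    have hk0 : K1.mkQ k = 0 := (Submodule.Quotient.mk_eq_zero _).2 hk
    rw [hk0, zero_add]
    have := Submodule.mem_map_of_mem (f := K1.mkQ) hw
    rw [Submodule.map_smul''] at this
    exact Submodule.smul_mono le_rfl le_top this
  have h3 := ht _ p hp t _ h0 h2
  have h4 : ∀ z ∈ I ^ t • LinearMap.ker p,
      ∃ w ∈ I ^ t • (⊤ : Submodule P X), z = K1.mkQ (u i ^ e • w) := by
    intro z hz
    refine Submodule.smul_induction_on hz ?_ ?_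
    · intro r hr z hz
      obtain ⟨y, rfl⟩ := K1.mkQ_surjective z
      have hy : y ∈ K0 := (Submodule.Quotient.mk_eq_zero _).1 hz
      obtain ⟨w, hw, y', rfl⟩ := (mem_update u α i e y).1 hy
      refine ⟨r • y', Submodule.smul_mem_smul hr Submodule.mem_top, ?_⟩
      have hw0 : K1.mkQ w = 0 := (Submodule.Quotient.mk_eq_zero _).2
        ((mem_update u α i (e + 1) w).2 ⟨w, hw, 0, by rw [smul_zero, add_zero]⟩)
      rw [map_add, hw0, zero_add, ← map_smul, smul_comm]
    · rintro _ _ ⟨w, hw, rfl⟩ ⟨w', hw', rfl⟩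
      exact ⟨w + w', Submodule.add_mem _ hw hw', by rw [smul_add, map_add]⟩
  obtain ⟨w, hw, hzw⟩ := h4 _ h3
  have h5 : u i ^ e • (D • x - w) ∈ K1 := by
    rw [← Submodule.Quotient.mk_eq_zero, smul_sub, smul_comm]
    show K1.mkQ _ = 0
    rw [map_sub, map_smul, hzw, sub_self]
  have h6 := hcol P ι u j X hs (Function.update α i (e + 1)) (Pi.single i e)
    (by
      intro k
      by_cases hk : k = i
      · subst hk
        simp
      · simp only [Function.update_of_ne hk, Pi.single_eq_of_ne hk]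
        exact h1 k)
    (by
      intro k
      by_cases hk : k = i
      · subst hk
        simp only [Function.update_self]
        omega
      · simp only [Function.update_of_ne hk]
        exact hα k)
    (D • x - w)
    (by
      have : ∏ k, u k ^ (Pi.single i e : ι → ℕ) k = u i ^ e := by
        rw [Finset.prod_eq_single i]
        · simp
        · intro k _ hk
          simp [Pi.single_eq_of_ne hk]
        · simp
      rw [this]
      exact h5)
  have h7 : (fun k => Function.update α i (e + 1) k - (Pi.single i e : ι → ℕ) k) =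
      Function.update α i 1 := by
    funext k
    by_cases hk : k = i
    · subst hk
      simp
    · simp [Function.update_of_ne hk, Pi.single_eq_of_ne hk]
  rw [h7] at h6
  have : D • x = (D • x - w) + w := by abel
  rw [this]
  exact Submodule.add_mem_sup h6 hw

end aux

theorem Cv.pow {P : Type} [CommRing P] [IsLocalRing P] {U : Filter ℕ} {z : ℕ → P} {a : P}
    (h : Cv U z a) (e : ℕ) : Cv U (fun n => z n ^ e) (a ^ e) := by
  intro j
  refine (h j).mono fun n hn => ?_
  obtain ⟨c, hc⟩ := sub_dvd_pow_sub_pow (z n) a e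
  show z n ^ e - a ^ e ∈ _
  rw [hc]
  exact Ideal.mul_mem_right _ _ hn

theorem reg (hsmu : SMU) (hbox : BOX) (hfg : FG) (hkru : KRU) (hcol : COL) (htib : TIB) :
    REG := by
  classical
  intro P _ _ U hU ι _ u D M _ _ G _ _ hG a d ha hd 𝔭 _ ha𝔭 hd𝔭 S i hi v hv
  haveI := hfg P U M hG.gen
  have C1 : ∀ (α : ι → ℕ), (∀ k, 1 ≤ α k) → ∀ e : ℕ, ∃ k : ℕ, ∀ m : L P (U : Filter ℕ) M,
      a i ^ (e + 1) • m ∈ Jb a (Function.update α i (e + 1 + 1)) •
        (⊤ : Submodule P (L P (U : Filter ℕ) M)) →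
      d ^ k • m ∈ Jb a (Function.update α i 1) • (⊤ : Submodule P (L P (U : Filter ℕ) M)) := by
    intro α h1 e
    obtain ⟨k, c, hk⟩ := htib P U ι u D M G hG (Function.update α i (e + 1)) (by
      intro k
      by_cases hk : k = i
      · subst hk
        simp
      · simp only [Function.update_of_ne hk]
        exact h1 k)
    refine ⟨k, fun m hm => ?_⟩
    obtain ⟨x, rfl⟩ := Submodule.Quotient.mk_surjective _ m
    rw [← hsmu P U M (fun n => u n i ^ (e + 1)) _ ((ha i).pow _) x] at hm
    rw [← hsmu P U M (fun n => D n ^ k) _ (hd.pow _) x]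
    have hm' := (hbox P U hU M ι (fun n k => u n k ^ Function.update α i (e + 1 + 1) k)
      (fun k => a k ^ Function.update α i (e + 1 + 1) k) (fun k => (ha k).pow _) _).1 hm
    refine (hbox P U hU M ι (fun n k => u n k ^ Function.update α i 1 k)
      (fun k => a k ^ Function.update α i 1 k) (fun k => (ha k).pow _) _).2 fun t => ?_
    refine ((hm' (t + c)).and (hk.and (hG.soc (Finset.univ.sup α + e + 1)))).mono ?_
    rintro n ⟨g1, g2, g3⟩
    refine fin1 hcol (u n) _ g3 α i (e + 1) h1 (fun k => ?_) (by omega) _ _ c t g2 (x n) g1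
    have : α k ≤ Finset.univ.sup α := Finset.le_sup (f := α) (Finset.mem_univ k)
    omega
  refine hkru P 𝔭 _ _ v fun N => ?_
  let α : ι → ℕ := fun k => if k ∈ S then 1 else N + 1
  have h1 : ∀ k, 1 ≤ α k := by
    intro k
    simp only [α]
    split_ifs <;> omega
  have hS : Ideal.span (a '' (S : Set ι)) ≤ Rr a α i := by
    refine Ideal.span_le.2 ?_
    rintro _ ⟨k, hk, rfl⟩
    have hk' : k ∈ S := hk
    refine Ideal.subset_span ⟨k, fun h => hi (h ▸ hk'), ?_⟩
    simp [α, hk']
  have step : ∀ e : ℕ, ∃ h ∉ 𝔭, h • v ∈ Jb a (Function.update α i e) •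
      (⊤ : Submodule P (L P (U : Filter ℕ) M)) := by
    intro e
    induction e with
    | zero =>
      refine ⟨1, (Ideal.ne_top_iff_one 𝔭).1 (Ideal.IsPrime.ne_top ‹_›), ?_⟩
      exact (mem_update a α i 0 _).2 ⟨0, Submodule.zero_mem _, v, by simp⟩
    | succ e ih =>
      obtain ⟨h, hh, hm⟩ := ih
      obtain ⟨w, hw, y, hy⟩ := (mem_update a α i e _).1 hm
      obtain ⟨k, hk⟩ := C1 α h1 e
      have h2 : a i ^ (e + 1) • y ∈ Rr a α i • (⊤ : Submodule P (L P (U : Filter ℕ) M)) := by
        have e1 : a i ^ (e + 1) • y = h • (a i • v) - a i • w := by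
          rw [smul_comm h, hy, smul_add, pow_succ', mul_smul]
          abel
        rw [e1]
        exact Submodule.sub_mem _
          (Submodule.smul_mem _ _ (Submodule.smul_mono hS le_rfl hv)) (Submodule.smul_mem _ _ hw)
      obtain ⟨r, hr, y', hy'⟩ := (mem_update a α i 1 _).1
        (hk y ((mem_update a α i _ _).2 ⟨_, h2, 0, by rw [smul_zero, add_zero]⟩))
      refine ⟨d ^ k * h, fun hc => ?_, ?_⟩
      · rcases Ideal.IsPrime.mem_or_mem ‹_› hc with h3 | h3
        · exact hd𝔭 (Ideal.IsPrime.mem_of_pow_mem ‹_› _ h3)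
        · exact hh h3
      · refine (mem_update a α i (e + 1) _).2 ⟨d ^ k • w + a i ^ e • r,
          Submodule.add_mem _ (Submodule.smul_mem _ _ hw) (Submodule.smul_mem _ _ hr), y', ?_⟩
        rw [mul_smul, hy, smul_add, smul_comm (d ^ k) (a i ^ e), hy', smul_add, pow_one, pow_succ,
          mul_smul, add_assoc]
  obtain ⟨h, hh, hm⟩ := step N
  refine ⟨h, hh, ?_⟩
  rw [← Submodule.sup_smul]
  refine Submodule.smul_mono ?_ le_rfl hm
  rw [Jb_update]
  refine sup_le (Ideal.span_le.2 ?_) (Ideal.span_le.2 ?_)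
  · rintro _ ⟨k, -, rfl⟩
    by_cases hk : k ∈ S
    · simp only [α, hk, if_true, pow_one]
      exact Ideal.mem_sup_left (Ideal.subset_span ⟨k, hk, rfl⟩)
    · simp only [α, hk, if_false]
      exact Ideal.mem_sup_right
        (Ideal.pow_le_pow_right (Nat.le_succ N) (Ideal.pow_mem_pow (ha𝔭 k) _))
  · rintro _ rfl
    exact Ideal.mem_sup_right (Ideal.pow_mem_pow (ha𝔭 i) _)

end Vale.Agent.P022D.PA
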