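import Vale.Agent.P022D.PA.Defs

/-!
P022D, block PA: tightness.
-/

set_option linter.all false

noncomputable section

namespace Vale.Agent.P022D.PA

open IsLocalRing Filter

namespace Ti

theorem mulD {P X : Type} [CommRing P] [AddCommGroup X] [Module P X] {I : Ideal P} {D : P}
    {K K' : Submodule P X} (h : ∀ y ∈ K, D • y ∈ K') {z : X} (hz : z ∈ I • K) :
    D • z ∈ I • K' := by
  refine Submodule.smul_induction_on hz (fun r hr y hy => ?_) fun a b ha hb => ?_
  · rw [smul_comm]; exact Submodule.smul_mem_smul hr (h y hy)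
  · rw [smul_add]; exact Submodule.add_mem _ ha hb

theorem mem_Jb {P ι : Type} [CommRing P] (u : ι → P) (α : ι → ℕ) (i : ι) : u i ^ α i ∈ Jb u α :=
  Ideal.subset_span ⟨i, rfl⟩

theorem Jb_le {P ι : Type} [CommRing P] {u : ι → P} {α : ι → ℕ} {J : Ideal P}
    (h : ∀ i, u i ^ α i ∈ J) : Jb u α ≤ J :=
  Ideal.span_le.2 (by rintro _ ⟨i, rfl⟩; exact h i)

end Ti

open Ti

theorem ti0 : TI0 := by
  intro P _ _ I G _ _ _
  obtain ⟨b, p0, hp0⟩ := Module.Finite.exists_fin' P G
  obtain ⟨c, hc⟩ := Ideal.exists_pow_inf_eq_pow_smul I (LinearMap.ker p0)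
  refine ⟨c, fun D Q _ _ β h1 h2 X _ _ p hp t x hx hx' => ?_⟩
  have h3 : ∀ i : Fin b, ∃ y : X, β (p y) = D • p0 (Pi.basisFun P (Fin b) i) := fun i => by
    obtain ⟨q, hq⟩ := h2 (p0 (Pi.basisFun P (Fin b) i))
    obtain ⟨y, rfl⟩ := hp q
    exact ⟨y, hq⟩
  choose y hy using h3
  let al := (Pi.basisFun P (Fin b)).constr P y
  have h4 : ∀ w, β (p (al w)) = D • p0 w := by
    have : (β ∘ₗ p) ∘ₗ al = D • p0 := (Pi.basisFun P (Fin b)).ext fun i => by
      simp only [LinearMap.comp_apply, al, Module.Basis.constr_basis, hy, LinearMap.smul_apply]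
    exact fun w => LinearMap.congr_fun this w
  have h5 : ∃ w ∈ I ^ (t + c) • (⊤ : Submodule P (Fin b → P)), p0 w = β (p x) ∧
      D • x - al w ∈ I ^ (t + c) • LinearMap.ker (β ∘ₗ p) := by
    clear hx
    refine Submodule.smul_induction_on hx' (fun r hr z _ => ?_) ?_
    · obtain ⟨w, hw⟩ := hp0 (β (p z))
      refine ⟨r • w, Submodule.smul_mem_smul hr trivial, by simp [hw], ?_⟩
      rw [smul_comm D, map_smul, ← smul_sub]
      refine Submodule.smul_mem_smul hr ?_
      simp [h4, hw]
    · rintro a b ⟨v, v1, v2, v3⟩ ⟨w, w1, w2, w3⟩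
      refine ⟨v + w, Submodule.add_mem _ v1 w1, by simp [v2, w2], ?_⟩
      rw [smul_add, map_add, add_sub_add_comm]
      exact Submodule.add_mem _ v3 w3
  obtain ⟨w, w1, w2, w3⟩ := h5
  have w4 : w ∈ I ^ t • LinearMap.ker p0 := by
    have : w ∈ I ^ (t + c) • (⊤ : Submodule P (Fin b → P)) ⊓ LinearMap.ker p0 :=
      ⟨w1, by simp [w2, hx]⟩
    rw [hc _ (Nat.le_add_left _ _), Nat.add_sub_cancel] at this
    exact Submodule.smul_mono le_rfl inf_le_right this
  have w5 : al w ∈ I ^ t • LinearMap.ker (β ∘ₗ p) := by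
    have := Submodule.mem_map_of_mem (f := al) w4
    rw [Submodule.map_smul''] at this
    refine Submodule.smul_mono le_rfl ?_ this
    rintro _ ⟨v, hv, rfl⟩
    simp [h4, LinearMap.mem_ker.1 hv]
  have w6 : D • x ∈ I ^ t • LinearMap.ker (β ∘ₗ p) := by
    have := Submodule.add_mem _
      (Submodule.smul_mono (Ideal.pow_le_pow_right (Nat.le_add_right t c)) le_rfl w3) w5
    rwa [sub_add_cancel] at this
  rw [sq, mul_smul]
  refine mulD (fun z hz => ?_) w6
  rw [LinearMap.mem_ker, map_smul]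
  exact h1 _ hz

theorem ti1 : TI1 := by
  intro P _ I D D' c c' A B C _ _ _ _ _ _ f g hf hfg hg hA hC X _ _ p hp t x hx hx'
  have h1 := hC X (g ∘ₗ p) (hg.comp hp) (t + c) x (by simp [hx]) (by rwa [add_assoc])
  let K := LinearMap.ker (g ∘ₗ p)
  let q : K →ₗ[P] A := (LinearEquiv.ofInjective f hf).symm.toLinearMap ∘ₗ
    LinearMap.codRestrict (LinearMap.range f) (p ∘ₗ K.subtype) fun z => (hfg _).1 z.2
  have hq : ∀ z : K, f (q z) = p z := fun z =>
    congrArg Subtype.val ((LinearEquiv.ofInjective f hf).apply_symm_apply _)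
  have h2 : D' • x ∈ K := by simp [K, hx]
  have h3 := hA K q (fun a => by
    obtain ⟨z, hz⟩ := hp (f a)
    exact ⟨⟨z, by simp [K, hz, hfg.apply_apply_eq_zero]⟩, hf ((hq _).trans hz)⟩) t ⟨_, h2⟩
    (hf (by rw [hq]; simp [hx])) ((Submodule.mem_smul_top_iff _ _ _).2 h1)
  have := Submodule.mem_map_of_mem (f := K.subtype) h3
  rw [Submodule.map_smul''] at this
  rw [mul_smul]
  refine Submodule.smul_mono le_rfl ?_ this
  rintro _ ⟨v, hv, rfl⟩
  rw [LinearMap.mem_ker, Submodule.subtype_apply, ← hq, LinearMap.mem_ker.1 hv, map_zero]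

namespace Ti

theorem step (hC : COL) {P : Type} [CommRing P] {ι : Type} [Fintype ι] [DecidableEq ι]
    (u : ι → P) (j : ℕ) (X : Type) [AddCommGroup X] [Module P X] (hS : Soc u j X) (α : ι → ℕ)
    (h1 : ∀ i, 1 ≤ α i) (h2 : ∀ i, α i ≤ j + 1) (i : ι) (a : ℕ) (ha : α i = a + 1)
    (I : Ideal P) (D D' : P) (c c' : ℕ)
    (hA : Tight I D c (X ⧸ Jb u (Function.update α i 1) • (⊤ : Submodule P X)))
    (hB : Tight I D' c' (X ⧸ Jb u (Function.update α i a) • (⊤ : Submodule P X))) :
    Tight I (D * D') (c + c') (X ⧸ Jb u α • (⊤ : Submodule P X)) := by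
  have m1 : ∀ r ∈ Jb u (Function.update α i 1), u i ^ a * r ∈ Jb u α := by
    intro r hr
    refine Ideal.mem_colon_span_singleton.1 ?_ |> fun h : r * u i ^ a ∈ Jb u α => mul_comm r _ ▸ h
    refine Jb_le (fun l => Ideal.mem_colon_span_singleton.2 ?_) hr
    by_cases e : l = i
    · subst e
      rw [Function.update_self, ← pow_add, add_comm, ← ha]; exact mem_Jb u α l
    · rw [Function.update_of_ne e]; exact Ideal.mul_mem_right _ _ (mem_Jb u α l)
  have m2 : Jb u α ≤ Jb u (Function.update α i a) := Jb_le fun l => by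
    have := mem_Jb u (Function.update α i a) l
    by_cases e : l = i
    · subst e
      rw [Function.update_self] at this
      rw [ha, pow_succ]; exact Ideal.mul_mem_right _ _ this
    · rwa [Function.update_of_ne e] at this
  have m3 : Jb u (Function.update α i a) ≤ Ideal.span {u i ^ a} ⊔ Jb u α := Jb_le fun l => by
    by_cases e : l = i
    · subst e
      rw [Function.update_self]; exact Ideal.mem_sup_left (Ideal.mem_span_singleton_self _)
    · rw [Function.update_of_ne e]; exact Ideal.mem_sup_right (mem_Jb u α l)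
  let f := Submodule.mapQ (Jb u (Function.update α i 1) • (⊤ : Submodule P X))
    (Jb u α • (⊤ : Submodule P X)) (u i ^ a • LinearMap.id) (fun x hx => by
      refine Submodule.smul_induction_on hx (fun r hr y _ => ?_)
        fun a b ha hb => Submodule.add_mem _ ha hb
      change u i ^ a • r • y ∈ Jb u α • (⊤ : Submodule P X)
      rw [← mul_smul]; exact Submodule.smul_mem_smul (m1 r hr) trivial)
  let g := Submodule.mapQ (Jb u α • (⊤ : Submodule P X))
    (Jb u (Function.update α i a) • (⊤ : Submodule P X)) LinearMap.id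
    (fun x hx => Submodule.smul_mono m2 le_rfl hx)
  have hf : ∀ x : X, f (Submodule.Quotient.mk x) = Submodule.Quotient.mk (u i ^ a • x) :=
    fun _ => rfl
  have hg : ∀ x : X, g (Submodule.Quotient.mk x) = Submodule.Quotient.mk x := fun _ => rfl
  refine ti1 P I D D' c c' _ _ _ f g ?_ (fun y => ?_) (fun y => ?_) hA hB
  · rw [injective_iff_map_eq_zero]
    intro y hy
    obtain ⟨x, rfl⟩ := Submodule.Quotient.mk_surjective _ y
    rw [hf, Submodule.Quotient.mk_eq_zero] at hy
    have := hC P ι u j X hS α (Pi.single i a) (fun l => by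
      by_cases e : l = i
      · subst e; simp [ha]
      · rw [Pi.single_eq_of_ne e]; exact h1 l) h2 x (by
      rwa [Finset.prod_eq_single i (fun l _ e => by rw [Pi.single_eq_of_ne e, pow_zero])
        (by simp), Pi.single_eq_same])
    rw [Submodule.Quotient.mk_eq_zero]
    have e : (fun l => α l - (Pi.single i a : ι → ℕ) l) = Function.update α i 1 := funext fun l => by
      by_cases e : l = i
      · subst e; simp [ha]
      · rw [Pi.single_eq_of_ne e, Function.update_of_ne e, Nat.sub_zero]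
    rwa [e] at this
  · obtain ⟨x, rfl⟩ := Submodule.Quotient.mk_surjective _ y
    rw [hg, Submodule.Quotient.mk_eq_zero]
    constructor
    · intro h
      have := Submodule.smul_mono m3 le_rfl h
      rw [Submodule.sup_smul, Submodule.ideal_span_singleton_smul] at this
      obtain ⟨v, hv, w, hw, rfl⟩ := Submodule.mem_sup.1 this
      obtain ⟨z, -, rfl⟩ := (Submodule.mem_smul_pointwise_iff_exists _ _ _).1 hv
      refine ⟨Submodule.Quotient.mk z, ?_⟩
      rw [hf, Submodule.Quotient.eq]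
      simpa using hw
    · rintro ⟨z, hz⟩
      obtain ⟨z, rfl⟩ := Submodule.Quotient.mk_surjective _ z
      rw [hf, Submodule.Quotient.eq] at hz
      have k : u i ^ a • z ∈ Jb u (Function.update α i a) • (⊤ : Submodule P X) :=
        Submodule.smul_mem_smul (by simpa using mem_Jb u (Function.update α i a) i) trivial
      simpa using Submodule.sub_mem _ k (Submodule.smul_mono m2 le_rfl hz)
  · obtain ⟨x, rfl⟩ := Submodule.Quotient.mk_surjective _ y
    exact ⟨_, hg x⟩

end Ti

theorem tib (hC : COL) : TIB := by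
  intro P _ _ _ U ι _ u D M _ _ G _ _ hG α hα
  classical
  haveI := hG.fin
  obtain ⟨c0, h0⟩ := ti0 P (maximalIdeal P) G
  obtain ⟨j, hj⟩ : ∃ j, ∀ i, α i ≤ j + 1 :=
    ⟨Finset.univ.sup α, fun i => (Finset.le_sup (Finset.mem_univ i)).trans (Nat.le_succ _)⟩
  suffices H : ∀ (s : ℕ) (α : ι → ℕ), ∑ i, α i = s → (∀ i, 1 ≤ α i) → (∀ i, α i ≤ j + 1) →
      ∃ k c : ℕ, ∀ n, Soc (u n) j (M n) →
      Tight (maximalIdeal P) (D n ^ k) c (M n ⧸ Jb (u n) α • (⊤ : Submodule P (M n))) by
    obtain ⟨k, c, h⟩ := H _ α rfl hα hj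
    exact ⟨k, c, (hG.soc j).mono h⟩
  intro s
  induction s using Nat.strong_induction_on with
  | _ s ih =>
  intro α hs h1 h2
  by_cases h : ∀ i, α i = 1
  · refine ⟨2, c0, fun n _ => ?_⟩
    obtain ⟨β, b1, b2, b3⟩ := hG.fib n
    have e : Jb (u n) α = J1 (u n) := by simp [Jb, J1, h]
    rw [e]
    refine h0 (D n) _ (Submodule.liftQ _ β fun x hx => ?_) (fun y hy => ?_) fun g => ?_
    · refine Submodule.smul_induction_on hx (fun r hr y _ => ?_)
        fun a b ha hb => Submodule.add_mem _ ha hb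
      refine Submodule.span_induction (p := fun r _ => r • y ∈ LinearMap.ker β) ?_ ?_ ?_ ?_ hr
      · rintro _ ⟨i, rfl⟩; exact b1 i y
      · simp
      · intro a b _ _ ha hb; rw [add_smul]; exact Submodule.add_mem _ ha hb
      · intro a b _ hb; rw [smul_assoc]; exact Submodule.smul_mem _ _ hb
    · obtain ⟨x, rfl⟩ := Submodule.Quotient.mk_surjective _ y
      rw [← Submodule.Quotient.mk_smul, Submodule.Quotient.mk_eq_zero]
      exact b2 x hy
    · rw [Submodule.range_liftQ]; exact b3 g
  · obtain ⟨i, hi⟩ := not_forall.1 h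
    obtain ⟨a, ha⟩ : ∃ a, α i = a + 1 := ⟨α i - 1, by have := h1 i; omega⟩
    have key : ∀ v, 1 ≤ v → v ≤ a → ∃ k c : ℕ, ∀ n, Soc (u n) j (M n) →
        Tight (maximalIdeal P) (D n ^ k) c
          (M n ⧸ Jb (u n) (Function.update α i v) • (⊤ : Submodule P (M n))) := by
      intro v v1 v2
      have le : ∀ l, Function.update α i v l ≤ α l := fun l => by
        by_cases e : l = i
        · subst e; rw [Function.update_self]; omega
        · rw [Function.update_of_ne e]
      refine ih _ (hs ▸ Finset.sum_lt_sum (fun l _ => le l)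
        ⟨i, Finset.mem_univ _, by rw [Function.update_self]; omega⟩) _ rfl (fun l => ?_)
        fun l => (le l).trans (h2 l)
      by_cases e : l = i
      · subst e; rwa [Function.update_self]
      · rw [Function.update_of_ne e]; exact h1 l
    obtain ⟨k, c, p1⟩ := key 1 le_rfl (by omega)
    obtain ⟨k', c', p2⟩ := key a (by omega) le_rfl
    refine ⟨k + k', c + c', fun n hn => ?_⟩
    rw [pow_add]
    exact Ti.step hC (u n) j (M n) hn α h1 h2 i a ha _ _ _ _ _ (p1 n hn) (p2 n hn)

end Vale.Agent.P022D.PA
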