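import Mathlib

/-! # P022, patching: limits of ideals, labels, descent -/

set_option linter.all false

noncomputable section

namespace Vale.Agent.P022D.PA

open IsLocalRing Filter

variable {P : Type} [CommRing P] [IsLocalRing P]

/-- the elements which are limits of elements of the `K n` along `U` -/
def Lim (U : Ultrafilter ℕ) (K : ℕ → Ideal P) : Ideal P where
  carrier := {f | ∀ k : ℕ, ∀ᶠ n in U, f ∈ K n ⊔ maximalIdeal P ^ k}
  add_mem' := fun ha hb k => ((ha k).and (hb k)).mono fun _ h => add_mem h.1 h.2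
  zero_mem' := fun _ => Eventually.of_forall fun _ => zero_mem _
  smul_mem' := fun c _ h k => (h k).mono fun _ h => Ideal.mul_mem_left _ c h

theorem mem_Lim {U : Ultrafilter ℕ} {K : ℕ → Ideal P} {f : P} :
    f ∈ Lim U K ↔ ∀ k : ℕ, ∀ᶠ n in U, f ∈ K n ⊔ maximalIdeal P ^ k := Iff.rfl

theorem Lim_mono {U : Ultrafilter ℕ} {K K' : ℕ → Ideal P} (h : ∀ᶠ n in U, K n ≤ K' n) :
    Lim U K ≤ Lim U K' := fun _ hf k =>
  ((hf k).and h).mono fun _ h => sup_le_sup_right h.2 _ h.1

theorem le_Lim {U : Ultrafilter ℕ} {K : ℕ → Ideal P} {e : Ideal P} (h : ∀ᶠ n in U, e ≤ K n) :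
    e ≤ Lim U K := fun _ hf _ => h.mono fun _ h => Ideal.mem_sup_left (h hf)

section cpt

variable [IsNoetherianRing P] [IsAdicComplete (maximalIdeal P) P] [Finite (ResidueField P)]

theorem exists_lim (U : Ultrafilter ℕ) (f : ℕ → P) :
    ∃ g : P, ∀ k : ℕ, ∀ᶠ n in U, g - f n ∈ maximalIdeal P ^ k := by
  have : Finite (P ⧸ maximalIdeal P) := inferInstanceAs (Finite (ResidueField P))
  have h1 : ∀ k : ℕ, ∃ g : P, ∀ᶠ n in U, g - f n ∈ maximalIdeal P ^ k := fun k => by
    have := Ideal.finite_quotient_pow (I := maximalIdeal P) (IsNoetherian.noetherian _) k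
    obtain ⟨c, hc⟩ := Ultrafilter.eq_pure_of_finite
      (U.map fun n => Ideal.Quotient.mk (maximalIdeal P ^ k) (f n))
    obtain ⟨g, rfl⟩ := Ideal.Quotient.mk_surjective c
    have h2 : ∀ᶠ n in U, Ideal.Quotient.mk (maximalIdeal P ^ k) (f n) =
        Ideal.Quotient.mk (maximalIdeal P ^ k) g := by
      have : {Ideal.Quotient.mk (maximalIdeal P ^ k) g} ∈
          U.map fun n => Ideal.Quotient.mk (maximalIdeal P ^ k) (f n) := by
        rw [hc]; exact Ultrafilter.mem_pure.2 rfl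
      exact this
    exact ⟨g, h2.mono fun n h => Ideal.Quotient.eq.1 h.symm⟩
  choose g hg using h1
  obtain ⟨l, hl⟩ := IsPrecomplete.prec (IsAdicComplete.toIsPrecomplete (I := maximalIdeal P)
    (M := P)) (f := g) fun {m n} hmn => by
      obtain ⟨i, h1, h2⟩ := ((hg m).and (hg n)).exists
      rw [SModEq.sub_mem, smul_eq_mul, Ideal.mul_top]
      have := sub_mem h1 (Ideal.pow_le_pow_right hmn h2)
      simpa using this
  refine ⟨l, fun k => (hg k).mono fun n h => ?_⟩
  have h1 := hl k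
  rw [SModEq.sub_mem, smul_eq_mul, Ideal.mul_top] at h1
  simpa using sub_mem h h1

theorem Lim_sup {U : Ultrafilter ℕ} (hU : (U : Filter ℕ) ≤ atTop) (K K' : ℕ → Ideal P) :
    Lim U (fun n => K n ⊔ K' n) ≤ Lim U K ⊔ Lim U K' := by
  classical
  intro g hg
  have h1 : ∀ n : ℕ, ∃ a ∈ K n, ∃ b ∈ K' n, ∀ k ≤ n, g ∈ K n ⊔ K' n ⊔ maximalIdeal P ^ k →
      g - (a + b) ∈ maximalIdeal P ^ k := fun n => by
    let p := fun k => g ∈ K n ⊔ K' n ⊔ maximalIdeal P ^ k
    have h0 : p (Nat.findGreatest p n) := Nat.findGreatest_spec (Nat.zero_le n) (by simp [p])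
    obtain ⟨c, hc, d, hd, e⟩ := Submodule.mem_sup.1 h0
    obtain ⟨a, ha, b, hb, rfl⟩ := Submodule.mem_sup.1 hc
    refine ⟨a, ha, b, hb, fun k hk h =>
      Ideal.pow_le_pow_right (Nat.le_findGreatest (P := p) hk h) ?_⟩
    rw [← e]; simpa using hd
  choose a ha b hb h using h1
  obtain ⟨l, hl⟩ := exists_lim U a
  refine Submodule.mem_sup.2 ⟨l, fun k => (hl k).mono fun n h1 => ?_, g - l, fun k => ?_, by ring⟩
  · exact Submodule.mem_sup.2 ⟨_, ha n, _, h1, by ring⟩
  · filter_upwards [hl k, hg k, hU (eventually_ge_atTop k)] with n h1 h2 h3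
    exact Submodule.mem_sup.2 ⟨_, hb n, _, sub_mem (h n k h3 h2) h1, by ring⟩

/-- a point which kills the limit almost kills the `K n` -/
theorem small {O : Type} [CommRing O] [IsLocalRing O] (x : P →+* O)
    (hx : ∀ a ∈ maximalIdeal P, x a ∈ maximalIdeal O) {U : Ultrafilter ℕ} {K : ℕ → Ideal P}
    (h : Lim U K ≤ RingHom.ker x) (j : ℕ) :
    ∀ᶠ n in U, ∀ f ∈ K n, x f ∈ maximalIdeal O ^ j := by
  classical
  by_contra c
  rw [← Ultrafilter.eventually_not] at c
  have h1 : ∀ n, ∃ f ∈ K n, (¬ ∀ f ∈ K n, x f ∈ maximalIdeal O ^ j) →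
      x f ∉ maximalIdeal O ^ j := fun n => by
    by_cases c : ∀ f ∈ K n, x f ∈ maximalIdeal O ^ j
    · exact ⟨0, zero_mem _, fun h => absurd c h⟩
    · push Not at c
      obtain ⟨f, h1, h2⟩ := c
      exact ⟨f, h1, fun _ => h2⟩
  choose f hf h2 using h1
  obtain ⟨l, hl⟩ := exists_lim U f
  have h3 : x l = 0 := h fun k => (hl k).mono fun n h1 =>
    Submodule.mem_sup.2 ⟨_, hf n, _, h1, by ring⟩
  obtain ⟨n, h4, h5⟩ := (c.and (hl j)).exists
  have h6 : maximalIdeal P ^ j ≤ (maximalIdeal O ^ j).comap x :=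
    (Ideal.pow_right_mono (fun a ha => hx a ha) j).trans (Ideal.le_comap_pow x j)
  have h7 := Ideal.mem_comap.1 (h6 h5)
  rw [map_sub, h3, zero_sub, neg_mem_iff] at h7
  exact h2 n h4 h7

end cpt

section prime

omit [IsLocalRing P]
variable {A : Type} [CommRing A] [IsDomain A] [Algebra A P]

theorem exists_prime {I : Ideal P} (h : ∀ f : A, algebraMap A P f ∈ I → f = 0) :
    ∃ q : Ideal P, q.IsPrime ∧ I ≤ q ∧ q.comap (algebraMap A P) = ⊥ := by
  obtain ⟨q, h1, h2, h3⟩ := I.exists_le_prime_disjoint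
    ((nonZeroDivisors A).map (algebraMap A P)) (Set.disjoint_left.2 fun a ha hb => by
      obtain ⟨f, hf, rfl⟩ := hb
      exact nonZeroDivisors.ne_zero hf (h f ha))
  refine ⟨q, h1, h2, eq_bot_iff.2 fun f hf => ?_⟩
  by_contra c
  exact Set.disjoint_left.1 h3 hf ⟨f, mem_nonZeroDivisors_of_ne_zero c, rfl⟩

theorem eq_of_le [Algebra.IsIntegral A P] {K q : Ideal P} (hK : K.IsPrime) (h : K ≤ q)
    (hq : q.comap (algebraMap A P) = ⊥) : K = q := by
  by_contra c
  have := Ideal.IsIntegral.comap_lt_comap (R := A) (lt_of_le_of_ne h c)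
  rw [hq] at this
  exact not_lt_bot this

/-- labels: as many labels as types, different labels have no common prime -/
theorem labels [Algebra.IsIntegral A P] {Λ T : Type} [Finite Λ] [Finite T]
    (hc : Nat.card T ≤ Nat.card Λ) (I : Λ → Ideal P) (K : T → Ideal P) (hK : ∀ τ, (K τ).IsPrime)
    (hF : ∀ π, ∀ f : A, algebraMap A P f ∈ I π → f = 0)
    (hS : ∀ π, ∀ q : Ideal P, q.IsPrime → I π ≤ q → q.comap (algebraMap A P) = ⊥ → ∃ τ, K τ ≤ q)
    (hD : ∀ π π', π ≠ π' → ∀ q : Ideal P, q.IsPrime → I π ≤ q → I π' ≤ q →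
      q.comap (algebraMap A P) ≠ ⊥) (τ : T) : ∃ π, I π ≤ K τ := by
  choose q h1 h2 h3 using fun π => exists_prime (hF π)
  choose t ht using fun π => hS π _ (h1 π) (h2 π) (h3 π)
  have e : ∀ π, K (t π) = q π := fun π => eq_of_le (hK _) (ht π) (h3 π)
  have hi : Function.Injective t := fun π π' h => by
    by_contra c
    exact hD π π' c _ (h1 π) (h2 π) (by rw [← e π, h, e π']; exact h2 π') (h3 π)
  obtain ⟨π, rfl⟩ := (hi.bijective_of_nat_card_le hc).2 τ
  exact ⟨π, e π ▸ h2 π⟩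

end prime

omit [IsLocalRing P] in
/-- Cayley-Hamilton -/
theorem ch {O : Type} [CommRing O] (x : P →+* O) {M : Type} [AddCommGroup M] [Module P M] {L : ℕ}
    (g : Fin L → M) (hg : Submodule.span P (Set.range g) = ⊤) {a : Ideal P}
    (ha : a ≤ RingHom.ker x) {t : P} (ht : ∀ m : M, t • m ∈ a • (⊤ : Submodule P M)) :
    ∃ f ∈ Module.annihilator P M, x f = x t ^ L := by
  have : Module.Finite P M := ⟨Submodule.fg_def.2 ⟨_, Set.finite_range g, hg⟩⟩
  obtain ⟨p, h1, h2, h3, h4⟩ :=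
    LinearMap.exists_monic_and_natDegree_eq_and_coeff_mem_pow_and_aeval_eq_zero P
      (algebraMap P (Module.End P M) t) a (by rintro _ ⟨m, rfl⟩; exact ht m)
  have hd : p.natDegree ≤ L := by
    rw [h2, ← hg]
    refine (Submodule.spanFinrank_span_le_ncard_of_finite (Set.finite_range g)).trans ?_
    rw [← Set.image_univ]
    exact (Set.ncard_image_le Set.finite_univ).trans (by simp)
  refine ⟨p.eval t * t ^ (L - p.natDegree), Ideal.mul_mem_right _ _ ?_, ?_⟩
  · rw [Module.mem_annihilator]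
    intro m
    rw [Polynomial.aeval_algebraMap_apply, Polynomial.coe_aeval_eq_eval] at h4
    exact congrArg (fun φ : Module.End P M => φ m) h4
  · have : x (p.eval t) = x t ^ p.natDegree := by
      rw [Polynomial.eval_eq_sum_range, Finset.sum_range_succ, h1.coeff_natDegree, one_mul, map_add,
        map_pow, map_sum, Finset.sum_eq_zero, zero_add]
      intro i hi
      rw [map_mul, show x (p.coeff i) = 0 from ha (Ideal.pow_le_self
        (by have := Finset.mem_range.1 hi; omega) (h3 i)), zero_mul]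
    rw [map_mul, this, map_pow, ← pow_add, Nat.add_sub_cancel' hd]

theorem not_mem_mul {O : Type} [CommRing O] [IsDomain O] [IsDiscreteValuationRing O] {a b : O}
    {i j : ℕ} (ha : a ∉ maximalIdeal O ^ i) (hb : b ∉ maximalIdeal O ^ j) :
    a * b ∉ maximalIdeal O ^ (i + j) := by
  obtain ⟨w, hw⟩ := IsDiscreteValuationRing.exists_irreducible O
  rw [hw.maximalIdeal_eq, Ideal.span_singleton_pow, Ideal.mem_span_singleton] at *
  intro h
  obtain ⟨c, hc⟩ := (ValuationRing.dvd_total a (w ^ i)).resolve_right ha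
  rw [pow_add, hc, mul_assoc] at h
  have h0 : a ≠ 0 := fun e => ha (e ▸ dvd_zero _)
  exact hb ((Dvd.intro_left _ rfl).trans ((mul_dvd_mul_iff_left h0).1 h))

theorem pow_not_mem {O : Type} [CommRing O] [IsDomain O] [IsDiscreteValuationRing O] {a : O}
    {i : ℕ} (ha : a ∉ maximalIdeal O ^ i) : ∀ n : ℕ, a ^ n ∉ maximalIdeal O ^ (n * i + 1)
  | 0 => by simpa using (maximalIdeal.isMaximal O).ne_top ∘ (Ideal.eq_top_iff_one _).2
  | n + 1 => by
    have := not_mem_mul (pow_not_mem ha n) ha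
    rwa [← pow_succ, show n * i + 1 + i = (n + 1) * i + 1 by ring] at this

/-- descent: a point which kills the limit of the annihilators kills what almost kills the
fibres -/
theorem descent [IsNoetherianRing P] [IsAdicComplete (maximalIdeal P) P] [Finite (ResidueField P)]
    {O : Type} [CommRing O] [IsDomain O] [IsDiscreteValuationRing O] (x : P →+* O)
    (hx : ∀ a ∈ maximalIdeal P, x a ∈ maximalIdeal O) {U : Ultrafilter ℕ} (M : ℕ → Type)
    [∀ n, AddCommGroup (M n)] [∀ n, Module P (M n)]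
    (h : Lim U (fun n => Module.annihilator P (M n)) ≤ RingHom.ker x) {L : ℕ}
    (hg : ∀ n, ∃ g : Fin L → M n, Submodule.span P (Set.range g) = ⊤) {t : P} {c c' : ℕ}
    (ht : ∀ᶠ n in U, ∃ (D : P) (a : Ideal P), a ≤ RingHom.ker x ∧ x D ∉ maximalIdeal O ^ c' ∧
      ∀ m : M n, (D * t) ^ c • m ∈ a • (⊤ : Submodule P (M n))) :
    x t = 0 := by
  by_contra h0
  obtain ⟨i, hi⟩ : ∃ i, x t ∉ maximalIdeal O ^ i := by
    by_contra c
    push Not at c
    have := (Ideal.iInf_pow_eq_bot_of_isLocalRing (maximalIdeal O)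
      (maximalIdeal.isMaximal O).ne_top).le (Ideal.mem_iInf.2 c)
    exact h0 this
  obtain ⟨n, ⟨D, a, h1, h2, h3⟩, h4⟩ :=
    (ht.and (small x hx h (c * L * (c' + i) + 1))).exists
  obtain ⟨g, hg⟩ := hg n
  obtain ⟨f, h5, h6⟩ := ch x g hg h1 h3
  have h7 := h4 f h5
  rw [h6, map_pow, ← pow_mul, map_mul] at h7
  exact pow_not_mem (not_mem_mul h2 hi) _ h7

end Vale.Agent.P022D.PA
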