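import Mathlib

/-!
P022D, block PA: patching with unbounded fibres. Definitions and the statements of the block.
-/

set_option linter.all false

noncomputable section

namespace Vale.Agent.P022D.PA

open IsLocalRing Filter

section defs

variable {P : Type} [CommRing P]

/-- length after localising at a prime -/
def ln (η : Ideal P) [η.IsPrime] (X : Type) [AddCommGroup X] [Module P X] : ℕ∞ :=
  Module.length (Localization.AtPrime η) (LocalizedModule η.primeCompl X)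

/-- the ideal of the box `α` -/
def Jb {ι : Type} (u : ι → P) (α : ι → ℕ) : Ideal P := Ideal.span (Set.range fun i => u i ^ α i)

/-- the ideal of the parameters -/
def J1 {ι : Type} (u : ι → P) : Ideal P := Ideal.span (Set.range u)

/-- socle condition (freeness over the truncated parameter ring) -/
def Soc {ι : Type} [Fintype ι] (u : ι → P) (j : ℕ) (X : Type) [AddCommGroup X] [Module P X] :
    Prop :=
  ∀ x : X, (∏ i, u i) ^ j • x ∈ Jb u (fun _ => j + 1) • (⊤ : Submodule P X) →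
    x ∈ J1 u • (⊤ : Submodule P X)

/-- uniform Artin-Rees property of all presentations of `Q`, up to the factor `D` -/
def Tight (I : Ideal P) (D : P) (c : ℕ) (Q : Type) [AddCommGroup Q] [Module P Q] : Prop :=
  ∀ (X : Type) [AddCommGroup X] [Module P X] (p : X →ₗ[P] Q), Function.Surjective p →
    ∀ (t : ℕ) (x : X), p x = 0 → x ∈ I ^ (t + c) • (⊤ : Submodule P X) →
      D • x ∈ I ^ t • LinearMap.ker p

variable [IsLocalRing P]

/-- `z n` tends to `a` along `U` -/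
def Cv (U : Filter ℕ) (z : ℕ → P) (a : P) : Prop :=
  ∀ j : ℕ, ∀ᶠ n in U, z n - a ∈ maximalIdeal P ^ j

/-- sequences that tend to zero along `U` -/
def Null (P : Type) [CommRing P] [IsLocalRing P] (U : Filter ℕ) (M : ℕ → Type)
    [∀ n, AddCommGroup (M n)] [∀ n, Module P (M n)] : Submodule P (∀ n, M n) where
  carrier := {x | ∀ j : ℕ, ∀ᶠ n in U, x n ∈ maximalIdeal P ^ j • (⊤ : Submodule P (M n))}
  zero_mem' := fun j => Eventually.of_forall fun n => Submodule.zero_mem _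
  add_mem' := fun {x y} hx hy j =>
    ((hx j).and (hy j)).mono fun n h => Submodule.add_mem _ h.1 h.2
  smul_mem' := fun c x hx j => (hx j).mono fun n h => Submodule.smul_mem _ c h

/-- the patched module -/
abbrev L (P : Type) [CommRing P] [IsLocalRing P] (U : Filter ℕ) (M : ℕ → Type)
    [∀ n, AddCommGroup (M n)] [∀ n, Module P (M n)] : Type :=
  (∀ n, M n) ⧸ Null P U M

/-- the patched map -/
def Lmap (U : Filter ℕ) {M N : ℕ → Type} [∀ n, AddCommGroup (M n)] [∀ n, Module P (M n)]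
    [∀ n, AddCommGroup (N n)] [∀ n, Module P (N n)] (f : ∀ n, M n →ₗ[P] N n) :
    L P U M →ₗ[P] L P U N :=
  Submodule.mapQ _ _ (LinearMap.pi fun n => (f n).comp (LinearMap.proj n)) (by
    intro x hx j
    refine (hx j).mono fun n h => ?_
    have : f n (x n) ∈ (maximalIdeal P ^ j • (⊤ : Submodule P (M n))).map (f n) :=
      Submodule.mem_map_of_mem h
    rw [Submodule.map_smul''] at this
    exact Submodule.smul_mono le_rfl le_top this)

/-- bounded number of generators -/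
def Gen (P : Type) [CommRing P] (M : ℕ → Type) [∀ n, AddCommGroup (M n)]
    [∀ n, Module P (M n)] : Prop :=
  ∃ b : ℕ, ∀ n, ∃ p : (Fin b → P) →ₗ[P] M n, Function.Surjective p

/-- a good sequence of modules: bounded generators, free over the truncated parameter rings,
fibre isomorphic to the fixed module `G` up to `D n` -/
structure Gd (U : Filter ℕ) {ι : Type} [Fintype ι] (u : ℕ → ι → P) (D : ℕ → P)
    (M : ℕ → Type) [∀ n, AddCommGroup (M n)] [∀ n, Module P (M n)]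
    (G : Type) [AddCommGroup G] [Module P G] : Prop where
  gen : Gen P M
  fin : Module.Finite P G
  soc : ∀ j : ℕ, ∀ᶠ n in U, Soc (u n) j (M n)
  fib : ∀ n, ∃ β : M n →ₗ[P] G, (∀ i x, β (u n i • x) = 0) ∧
    (∀ x, β x = 0 → D n • x ∈ J1 (u n) • (⊤ : Submodule P (M n))) ∧
    ∀ g : G, D n • g ∈ LinearMap.range β

end defs

/-- the base rings -/
class Base (P : Type) [CommRing P] : Prop extends IsNoetherianRing P, IsLocalRing P where
  cpl : IsAdicComplete (maximalIdeal P) P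
  fin : Finite (ResidueField P)

/-! ### A. limits -/

/-- every sequence has a limit -/
def LIM : Prop := ∀ (P : Type) [CommRing P] [Base P] (U : Ultrafilter ℕ) (z : ℕ → P),
  ∃ a, Cv (U : Filter ℕ) z a

/-- limits of elements of a closed set `I` (any ideal), and of elements uniformly outside -/
def LIMI : Prop := ∀ (P : Type) [CommRing P] [Base P] (U : Ultrafilter ℕ) (z : ℕ → P) (a : P)
  (I : Ideal P), Cv (U : Filter ℕ) z a →
    ((∀ᶠ n in (U : Filter ℕ), z n ∈ I) → a ∈ I) ∧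
    ∀ j : ℕ, (∀ᶠ n in (U : Filter ℕ), z n ∉ I ⊔ maximalIdeal P ^ j) → a ∉ I

/-- a sequence of scalars acts through its limit -/
def SMU : Prop := ∀ (P : Type) [CommRing P] [IsLocalRing P] (U : Filter ℕ) (M : ℕ → Type)
  [∀ n, AddCommGroup (M n)] [∀ n, Module P (M n)] (z : ℕ → P) (a : P), Cv U z a →
    ∀ x : ∀ n, M n, (Submodule.Quotient.mk (fun n => z n • x n) : L P U M) =
      a • Submodule.Quotient.mk x

/-- diagonal argument -/
def DIAG : Prop := ∀ (P : Type) [CommRing P] [IsLocalRing P] (U : Filter ℕ), U ≤ atTop →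
  ∀ (M : ℕ → Type) [∀ n, AddCommGroup (M n)] [∀ n, Module P (M n)] (K : ∀ n, Submodule P (M n))
    (x : ∀ n, M n),
    (∀ j : ℕ, ∀ᶠ n in U, x n ∈ K n ⊔ maximalIdeal P ^ j • (⊤ : Submodule P (M n))) →
      ∃ y : ∀ n, M n, (∀ n, y n ∈ K n) ∧
        (Submodule.Quotient.mk x : L P U M) = Submodule.Quotient.mk y

/-- membership in a box ideal times the patched module -/
def BOX : Prop := ∀ (P : Type) [CommRing P] [IsLocalRing P] (U : Filter ℕ), U ≤ atTop →
  ∀ (M : ℕ → Type) [∀ n, AddCommGroup (M n)] [∀ n, Module P (M n)] (ι : Type) [Fintype ι]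
    (z : ℕ → ι → P) (a : ι → P), (∀ i, Cv U (fun n => z n i) (a i)) → ∀ x : ∀ n, M n,
      ((Submodule.Quotient.mk x : L P U M) ∈ J1 a • (⊤ : Submodule P (L P U M)) ↔
        ∀ j : ℕ, ∀ᶠ n in U, x n ∈ J1 (z n) • (⊤ : Submodule P (M n)) ⊔
          maximalIdeal P ^ j • (⊤ : Submodule P (M n)))

/-- patching is right exact -/
def REX : Prop := ∀ (P : Type) [CommRing P] [IsLocalRing P] (U : Filter ℕ), U ≤ atTop →
  ∀ (A B C : ℕ → Type) [∀ n, AddCommGroup (A n)] [∀ n, Module P (A n)]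
    [∀ n, AddCommGroup (B n)] [∀ n, Module P (B n)] [∀ n, AddCommGroup (C n)]
    [∀ n, Module P (C n)] (f : ∀ n, A n →ₗ[P] B n) (g : ∀ n, B n →ₗ[P] C n),
    (∀ n, Function.Exact (f n) (g n)) → (∀ n, Function.Surjective (g n)) →
      Function.Exact (Lmap U f) (Lmap U g) ∧ Function.Surjective (Lmap U g)

/-- the patched module is finitely generated -/
def FG : Prop := ∀ (P : Type) [CommRing P] [Base P] (U : Ultrafilter ℕ) (M : ℕ → Type)
  [∀ n, AddCommGroup (M n)] [∀ n, Module P (M n)], Gen P M →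
    Module.Finite P (L P (U : Filter ℕ) M)

/-! ### B. local algebra up to elements outside a prime -/

/-- Krull intersection at a prime -/
def KRU : Prop := ∀ (P : Type) [CommRing P] [IsNoetherianRing P] (𝔭 : Ideal P) [𝔭.IsPrime]
  (X : Type) [AddCommGroup X] [Module P X] [Module.Finite P X] (K : Submodule P X) (v : X),
  (∀ a : ℕ, ∃ h ∉ 𝔭, h • v ∈ K ⊔ 𝔭 ^ a • (⊤ : Submodule P X)) → ∃ h ∉ 𝔭, h • v ∈ K

/-- additivity of the local length on sequences that are exact at `η` -/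
def LEN : Prop := ∀ (P : Type) [CommRing P] (η : Ideal P) [η.IsPrime]
  (A B C : Type) [AddCommGroup A] [Module P A] [AddCommGroup B] [Module P B] [AddCommGroup C]
  [Module P C] (f : A →ₗ[P] B) (g : B →ₗ[P] C), (∀ x, g (f x) = 0) →
    (∀ y, g y = 0 → ∃ h ∉ η, h • y ∈ LinearMap.range f) →
      ln η B ≤ ln η A + ln η C ∧
      ((∀ x, f x = 0 → ∃ h ∉ η, h • x = 0) → (∀ z : C, ∃ h ∉ η, h • z ∈ LinearMap.range g) →
        ln η B = ln η A + ln η C)

/-- vanishing of the local length -/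
def LEN0 : Prop := ∀ (P : Type) [CommRing P] (η : Ideal P) [η.IsPrime]
  (X : Type) [AddCommGroup X] [Module P X],
    (ln η X = 0 ↔ ∀ x : X, ∃ h ∉ η, h • x = 0) ∧
    (Module.Finite P X → (ln η X = 0 ↔ ¬ Module.annihilator P X ≤ η))

/-- a regular sequence at `𝔭` gives a large prime in the support -/
def CHN : Prop := ∀ (P : Type) [CommRing P] [IsNoetherianRing P] (𝔭 : Ideal P) [𝔭.IsPrime]
  (X : Type) [AddCommGroup X] [Module P X] [Module.Finite P X] (ι : Type) [Fintype ι]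
  (a : ι → P),
  (∀ (S : Finset ι) (i : ι), i ∉ S → ∀ v : X,
    a i • v ∈ Ideal.span (a '' (S : Set ι)) • (⊤ : Submodule P X) →
      ∃ h ∉ 𝔭, h • v ∈ Ideal.span (a '' (S : Set ι)) • (⊤ : Submodule P X)) →
  Module.annihilator P (X ⧸ J1 a • (⊤ : Submodule P X)) ≤ 𝔭 →
    ∃ η : Ideal P, η.IsPrime ∧ η ≤ 𝔭 ∧ Module.annihilator P X ≤ η ∧ (∀ i, a i ∉ η) ∧
      (Fintype.card ι : WithBot ℕ∞) + ringKrullDim (P ⧸ 𝔭) ≤ ringKrullDim (P ⧸ η)

/-- injective on the fibre and regular on the target gives injective -/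
def INJ : Prop := ∀ (P : Type) [CommRing P] [IsNoetherianRing P] (𝔭 : Ideal P) [𝔭.IsPrime]
  (X Y : Type) [AddCommGroup X] [Module P X] [Module.Finite P X] [AddCommGroup Y] [Module P Y]
  (f : X →ₗ[P] Y) (ι : Type) [Fintype ι] (a : ι → P), (∀ i, a i ∈ 𝔭) →
  (∀ (S : Finset ι) (i : ι), i ∉ S → ∀ v : Y,
    a i • v ∈ Ideal.span (a '' (S : Set ι)) • (⊤ : Submodule P Y) →
      ∃ h ∉ 𝔭, h • v ∈ Ideal.span (a '' (S : Set ι)) • (⊤ : Submodule P Y)) →
  (∀ v : X, f v ∈ J1 a • (⊤ : Submodule P Y) → ∃ h ∉ 𝔭, h • v ∈ J1 a • (⊤ : Submodule P X)) →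
    ∀ v : X, f v = 0 → ∃ h ∉ 𝔭, h • v = 0

/-- end game at `η`: a cyclic module of maximal length is free -/
def END : Prop := ∀ (P : Type) [CommRing P] [IsNoetherianRing P] (η : Ideal P) [η.IsPrime]
  (C : Type) [AddCommGroup C] [Module P C] [Module.Finite P C] (π δ : P) (a : C) (𝔟 : Ideal P),
  π ∈ η → δ ∉ η → (∀ v : C, π • v = 0 → ∃ h ∉ η, h • v = 0) →
  (∀ v : C, δ • v ∈ Submodule.span P {a} ⊔ Ideal.span {π} • (⊤ : Submodule P C)) →
  𝔟 ≤ Module.annihilator P C →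
  ln η (P ⧸ (𝔟 ⊔ Ideal.span {π})) ≤ ln η (C ⧸ Ideal.span {π} • (⊤ : Submodule P C)) →
  ln η (P ⧸ (𝔟 ⊔ Ideal.span {π})) ≠ ⊤ →
    ∃ h ∉ η, ∀ t ∈ Module.annihilator P C, h * t ∈ 𝔟

/-! ### C. finite level -/

/-- colon formula from the socle condition -/
def COL : Prop := ∀ (P : Type) [CommRing P] (ι : Type) [Fintype ι] (u : ι → P) (j : ℕ)
  (X : Type) [AddCommGroup X] [Module P X], Soc u j X → ∀ α γ : ι → ℕ, (∀ i, γ i < α i) →
    (∀ i, α i ≤ j + 1) → ∀ x : X, (∏ i, u i ^ γ i) • x ∈ Jb u α • (⊤ : Submodule P X) →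
      x ∈ Jb u (fun i => α i - γ i) • (⊤ : Submodule P X)

/-- tightness: modules isomorphic to a fixed one up to `D`, and extensions -/
def TI0 : Prop := ∀ (P : Type) [CommRing P] [IsNoetherianRing P] (I : Ideal P)
  (G : Type) [AddCommGroup G] [Module P G] [Module.Finite P G], ∃ c : ℕ,
    ∀ (D : P) (Q : Type) [AddCommGroup Q] [Module P Q] (β : Q →ₗ[P] G),
      (∀ x, β x = 0 → D • x = 0) → (∀ g : G, D • g ∈ LinearMap.range β) → Tight I (D ^ 2) c Q

def TI1 : Prop := ∀ (P : Type) [CommRing P] (I : Ideal P) (D D' : P) (c c' : ℕ)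
  (A B C : Type) [AddCommGroup A] [Module P A] [AddCommGroup B] [Module P B] [AddCommGroup C]
  [Module P C] (f : A →ₗ[P] B) (g : B →ₗ[P] C), Function.Injective f → Function.Exact f g →
    Function.Surjective g → Tight I D c A → Tight I D' c' C → Tight I (D * D') (c + c') B

/-- all box quotients of a good sequence are uniformly tight -/
def TIB : Prop := ∀ (P : Type) [CommRing P] [IsNoetherianRing P] [IsLocalRing P] (U : Filter ℕ)
  (ι : Type) [Fintype ι] (u : ℕ → ι → P) (D : ℕ → P) (M : ℕ → Type)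
  [∀ n, AddCommGroup (M n)] [∀ n, Module P (M n)] (G : Type) [AddCommGroup G] [Module P G],
  Gd U u D M G → ∀ α : ι → ℕ, (∀ i, 1 ≤ α i) → ∃ k c : ℕ, ∀ᶠ n in U,
    Tight (maximalIdeal P) (D n ^ k) c (M n ⧸ Jb (u n) α • (⊤ : Submodule P (M n)))

/-! ### D. the patched modules -/

/-- the parameters form a regular sequence at `𝔭` -/
def REG : Prop := ∀ (P : Type) [CommRing P] [Base P] (U : Ultrafilter ℕ), (U : Filter ℕ) ≤ atTop →
  ∀ (ι : Type) [Fintype ι] (u : ℕ → ι → P) (D : ℕ → P) (M : ℕ → Type)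
    [∀ n, AddCommGroup (M n)] [∀ n, Module P (M n)] (G : Type) [AddCommGroup G] [Module P G],
    Gd (U : Filter ℕ) u D M G → ∀ (a : ι → P) (d : P), (∀ i, Cv (U : Filter ℕ) (fun n => u n i) (a i)) →
    Cv (U : Filter ℕ) D d → ∀ (𝔭 : Ideal P) [𝔭.IsPrime], (∀ i, a i ∈ 𝔭) → d ∉ 𝔭 →
    ∀ (S : Finset ι) (i : ι), i ∉ S → ∀ v : L P (U : Filter ℕ) M,
      a i • v ∈ Ideal.span (a '' (S : Set ι)) • (⊤ : Submodule P (L P (U : Filter ℕ) M)) →
        ∃ h ∉ 𝔭, h • v ∈ Ideal.span (a '' (S : Set ι)) • (⊤ : Submodule P (L P (U : Filter ℕ) M))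

/-- patching is exact at `𝔭` on good sequences that are exact on the fibres -/
def EXA : Prop := ∀ (P : Type) [CommRing P] [Base P] (U : Ultrafilter ℕ), (U : Filter ℕ) ≤ atTop →
  ∀ (ι : Type) [Fintype ι] (u : ℕ → ι → P) (D : ℕ → P) (A B C : ℕ → Type)
    [∀ n, AddCommGroup (A n)] [∀ n, Module P (A n)] [∀ n, AddCommGroup (B n)]
    [∀ n, Module P (B n)] [∀ n, AddCommGroup (C n)] [∀ n, Module P (C n)]
    (G G' : Type) [AddCommGroup G] [Module P G] [AddCommGroup G'] [Module P G']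
    (f : ∀ n, A n →ₗ[P] B n) (g : ∀ n, B n →ₗ[P] C n),
    (∀ n x, f n x ∈ J1 (u n) • (⊤ : Submodule P (B n)) →
      D n • x ∈ J1 (u n) • (⊤ : Submodule P (A n))) → (∀ n, Function.Exact (f n) (g n)) →
    (∀ n, Function.Surjective (g n)) → Gen P A → Gd (U : Filter ℕ) u D B G →
    Gd (U : Filter ℕ) u D C G' →
    ∀ (a : ι → P) (d : P), (∀ i, Cv (U : Filter ℕ) (fun n => u n i) (a i)) →
    Cv (U : Filter ℕ) D d → ∀ (𝔭 : Ideal P) [𝔭.IsPrime], (∀ i, a i ∈ 𝔭) → d ∉ 𝔭 →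
      (∀ v, Lmap (U : Filter ℕ) f v = 0 → ∃ h ∉ 𝔭, h • v = 0) ∧
      ∀ (η : Ideal P) [η.IsPrime], η ≤ 𝔭 →
        ln η (L P (U : Filter ℕ) B) = ln η (L P (U : Filter ℕ) A) + ln η (L P (U : Filter ℕ) C)

/-- a large prime in the support of the patched module -/
def ETA : Prop := ∀ (P : Type) [CommRing P] [Base P] (U : Ultrafilter ℕ), (U : Filter ℕ) ≤ atTop →
  ∀ (ι : Type) [Fintype ι] (u : ℕ → ι → P) (D : ℕ → P) (M : ℕ → Type)
    [∀ n, AddCommGroup (M n)] [∀ n, Module P (M n)] (G : Type) [AddCommGroup G] [Module P G],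
    Gd (U : Filter ℕ) u D M G → ∀ (a : ι → P) (d : P), (∀ i, Cv (U : Filter ℕ) (fun n => u n i) (a i)) →
    Cv (U : Filter ℕ) D d → ∀ (𝔭 : Ideal P) [𝔭.IsPrime], Module.annihilator P G ≤ 𝔭 → d ∉ 𝔭 →
      (∀ i, a i ∈ 𝔭) ∧
      ∃ η : Ideal P, η.IsPrime ∧ η ≤ 𝔭 ∧ Module.annihilator P (L P (U : Filter ℕ) M) ≤ η ∧
        (∀ i, a i ∉ η) ∧
        (Fintype.card ι : WithBot ℕ∞) + ringKrullDim (P ⧸ 𝔭) ≤ ringKrullDim (P ⧸ η)

/-- descent -/
def DSC : Prop := ∀ (P : Type) [CommRing P] [Base P] (U : Ultrafilter ℕ), (U : Filter ℕ) ≤ atTop →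
  ∀ (ι : Type) [Fintype ι] (s : ℕ → ι → P) (M : ℕ → Type)
    [∀ n, AddCommGroup (M n)] [∀ n, Module P (M n)], Gen P M → ∀ (𝔮 : Ideal P) [𝔮.IsPrime],
    Module.annihilator P (L P (U : Filter ℕ) M) ≤ 𝔮 → (∀ n i, s n i ∈ 𝔮) →
    ∀ (z : ℕ → P) (a : P), Cv (U : Filter ℕ) z a →
      (∀ n (x : M n), z n • x ∈ J1 (s n) • (⊤ : Submodule P (M n))) → a ∈ 𝔮

/-! ### E. the cover by the roots of the inertia polynomials -/

/-- `P` is `P₀` with roots `y q` of quadratic polynomials adjoined, modulo the ideal `𝔯` -/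
structure Cov (P₀ P : Type) [CommRing P₀] [CommRing P] [Algebra P₀ P] {κ : Type}
    (y : κ → P) (a b : κ → P₀) (𝔯 : Ideal P) : Prop where
  rel : ∀ q, y q ^ 2 - algebraMap P₀ P (a q) * y q + algebraMap P₀ P (b q) ∈ 𝔯
  free : Module.Free P₀ (P ⧸ 𝔯)
  fin : Module.Finite P₀ (P ⧸ 𝔯)
  gen : Algebra.adjoin P₀ (Set.range fun q => Ideal.Quotient.mk 𝔯 (y q)) = ⊤

/-- unramified cover: lengths, dimensions, going down, lying over -/
def ETL : Prop := ∀ (P₀ P : Type) [CommRing P₀] [CommRing P] [IsNoetherianRing P₀] [Algebra P₀ P]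
  (κ : Type) [Fintype κ] (y : κ → P) (a b : κ → P₀) (𝔯 : Ideal P), Cov P₀ P y a b 𝔯 →
    (∀ (η : Ideal P) [η.IsPrime], 𝔯 ≤ η →
      ringKrullDim (P ⧸ η) = ringKrullDim (P₀ ⧸ η.comap (algebraMap P₀ P)) ∧
      ((∀ q, 2 * y q - algebraMap P₀ P (a q) ∉ η) → ∀ 𝔠 : Ideal P₀,
        ln η (P ⧸ (𝔠.map (algebraMap P₀ P) ⊔ 𝔯)) ≤ ln (η.comap (algebraMap P₀ P)) (P₀ ⧸ 𝔠)) ∧
      ∀ (𝔠 : Ideal P₀) (h : P) (t : P₀), h ∉ η →
        h * algebraMap P₀ P t ∈ 𝔠.map (algebraMap P₀ P) ⊔ 𝔯 →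
          ∃ h₀ ∉ η.comap (algebraMap P₀ P), h₀ * t ∈ 𝔠) ∧
    ∀ (I 𝔮 : Ideal P) [𝔮.IsPrime], 𝔯 ≤ I → 𝔯 ≤ 𝔮 → (∀ q, y q ∈ 𝔮) →
      (∀ q, algebraMap P₀ P (a q) ∈ 𝔮 ∧ algebraMap P₀ P (b q) ∈ 𝔮) →
      I.comap (algebraMap P₀ P) ≤ 𝔮.comap (algebraMap P₀ P) → I ≤ 𝔮

end Vale.Agent.P022D.PA
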